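import Vale.Agent.P322T.QLog
import Vale.Agent.P322V.Tangent

/-! Cell checks for the inductive step of the `U_θ` Bellman function. -/

namespace Vale.Agent.P322T

open Real Vale.Agent.P322V

/-- `NN z = log 2 - ½ log (1 - z²)`. -/
noncomputable def NN (z : ℝ) : ℝ := Real.log 2 - (1 / 2) * Real.log (1 - z ^ 2)

/-- The concave profile. -/
noncomputable def CC (θ B : ℝ) : ℝ := 1 - θ * B ^ 2 - (1 - θ) * B ^ 4

/-- The Bellman function `U_θ`. -/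
noncomputable def UT (h θ m : ℝ) : ℝ := h * (1 - θ * m ^ 2 - (1 - θ) * m ^ 4)

/-- The two scalar conditions at `(ρ, θ, B)` for the tangent point `x`. -/
def GoodAt (ρ θ B x : ℝ) : Prop :=
  psi ρ * NN x ≤ NN (ρ * x) * ath x * B + psi ρ * NN (ρ * x) * CC θ B - NN x * (ρ * ath (ρ * x)) * B
  ∧ 6 * NN (ρ * x) * (1 - θ) * B ^ 2 ≤ (NN x - NN (ρ * x)) * θ

lemma NN_pos' {z : ℝ} (h0 : 0 ≤ z) (h1 : z < 1) : 0 < NN z := by
  unfold NN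
  exact NN_pos (by positivity) (by nlinarith)

lemma NN_mono {a b : ℝ} (ha : 0 ≤ a) (hab : a ≤ b) (hb : b < 1) : NN a ≤ NN b := by
  unfold NN
  have h1 : 0 < 1 - b ^ 2 := by nlinarith
  have h2 : 1 - b ^ 2 ≤ 1 - a ^ 2 := by nlinarith
  have := Real.log_le_log h1 h2
  linarith

lemma ath_mono {a b : ℝ} (ha : 0 ≤ a) (hab : a ≤ b) (hb : b < 1) : ath a ≤ ath b := by
  have ha' : |a| < 1 := by rw [abs_of_nonneg ha]; linarith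
  have hb' : |b| < 1 := by rw [abs_of_nonneg (ha.trans hab)]; linarith
  rw [ath_eq ha', ath_eq hb']
  have h1 := Real.log_le_log (by linarith : 0 < 1 + a) (by linarith : 1 + a ≤ 1 + b)
  have h2 := Real.log_le_log (by linarith : 0 < 1 - b) (by linarith : 1 - b ≤ 1 - a)
  linarith

lemma ath_nonneg {a : ℝ} (ha : 0 ≤ a) (ha1 : a < 1) : 0 ≤ ath a := by
  have := ath_mono le_rfl ha ha1
  have h0 : ath 0 = 0 := ath_zero
  linarith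

/-- The scalar conditions give the Bellman inequality, for every `A`. -/
lemma step_of_good {ρ θ B x : ℝ} (hρ0 : 0 < ρ) (hρ1 : ρ < 1) (hθ0 : 0 ≤ θ) (hθ1 : θ ≤ 1)
    (hx0 : 0 < x) (hx1 : x < 1) (hg : GoodAt ρ θ B x) (A : ℝ) :
    UT (psi ρ) θ A ≤ alphaX ρ x * B +
      betaX ρ x * ((UT (psi ρ) θ (A + B) + UT (psi ρ) θ (A - B)) / 2) := by
  obtain ⟨ha, hb⟩ := hg
  have hz0 : 0 ≤ ρ * x := by positivity
  have hz1 : ρ * x < 1 := by nlinarith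
  have hN1 : 0 < NN x := NN_pos' hx0.le hx1
  have hN2 : 0 < NN (ρ * x) := NN_pos' hz0 hz1
  have hN21 : NN (ρ * x) ≤ NN x := NN_mono hz0 (by nlinarith) hx1
  have hh : 0 ≤ psi ρ := psi_nonneg (by rw [abs_of_pos hρ0]; exact hρ1.le)
  have hβ : betaX ρ x = NN (ρ * x) / NN x := rfl
  set N1 := NN x with hN1def
  set N2 := NN (ρ * x) with hN2def
  set h := psi ρ with hhdef
  set X := ath x
  set Z := ρ * ath (ρ * x) with hZ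
  have hα : alphaX ρ x = N2 / N1 * X - Z := by
    unfold alphaX
    rw [hβ]
  rw [hα, hβ]
  have key : N1 * UT h θ A ≤ N1 * ((N2 / N1 * X - Z) * B
      + N2 / N1 * ((UT h θ (A + B) + UT h θ (A - B)) / 2)) := by
    have e : N1 * ((N2 / N1 * X - Z) * B + N2 / N1 * ((UT h θ (A + B) + UT h θ (A - B)) / 2))
        = N2 * X * B - N1 * Z * B + N2 * ((UT h θ (A + B) + UT h θ (A - B)) / 2) := by
      field_simp
    rw [e]
    have hy : 0 ≤ A ^ 2 := sq_nonneg A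
    have hd : 0 ≤ N1 - N2 := by linarith
    have h1 : 0 ≤ h * (A ^ 2 * ((N1 - N2) * θ - 6 * N2 * (1 - θ) * B ^ 2)) :=
      mul_nonneg hh (mul_nonneg hy (by linarith))
    have h2 : 0 ≤ h * ((N1 - N2) * (1 - θ) * (A ^ 2) ^ 2) :=
      mul_nonneg hh (mul_nonneg (mul_nonneg hd (by linarith)) (by positivity))
    unfold UT
    unfold CC at ha
    nlinarith [h1, h2, ha]
  exact le_of_mul_le_mul_left key hN1

/-- Lower bound of the main quantity by the bounds. -/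
lemma E_lower {N1 N2 X Z h N1hi N2lo Ax A2 H B C : ℝ}
    (hN1 : N1 ≤ N1hi) (hN2 : N2lo ≤ N2) (hN21 : N2 ≤ N1) (hAx : Ax ≤ X) (hA2 : Z ≤ A2)
    (hh : h ≤ H) (h0 : 0 ≤ h) (hN2lo : 0 ≤ N2lo) (hAx0 : 0 ≤ Ax) (hZ0 : 0 ≤ Z) (hN10 : 0 ≤ N1)
    (hB0 : 0 ≤ B) (hC0 : 0 ≤ C) (hC1 : C ≤ 1)
    (hE : 0 ≤ N2lo * Ax * B - N1hi * A2 * B - H * (N1hi - N2lo * C)) :
    h * N1 ≤ N2 * X * B + h * N2 * C - N1 * Z * B := by
  have h1 : N2lo * Ax * B ≤ N2 * X * B :=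
    mul_le_mul_of_nonneg_right (mul_le_mul hN2 hAx hAx0 (hN2lo.trans hN2)) hB0
  have h2 : N1 * Z * B ≤ N1hi * A2 * B :=
    mul_le_mul_of_nonneg_right (mul_le_mul hN1 hA2 hZ0 (hN10.trans hN1)) hB0
  have hq0 : 0 ≤ N1 - N2 * C := by
    have : N2 * C ≤ N2 * 1 := mul_le_mul_of_nonneg_left hC1 (hN2lo.trans hN2)
    linarith
  have hq1 : N1 - N2 * C ≤ N1hi - N2lo * C := by
    have : N2lo * C ≤ N2 * C := mul_le_mul_of_nonneg_right hN2 hC0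
    linarith
  have h3 : h * (N1 - N2 * C) ≤ H * (N1hi - N2lo * C) :=
    mul_le_mul hh hq1 hq0 (h0.trans hh)
  nlinarith

/-- `E` is concave in `B`: positivity at the two ends of an interval suffices. -/
lemma E_chord {c0 c1 c2 θ B1 B2 B : ℝ} (hc2 : 0 ≤ c2) (hθ0 : 0 ≤ θ) (hθ1 : θ ≤ 1) (hB10 : 0 ≤ B1)
    (hB1 : B1 ≤ B) (hB2 : B ≤ B2)
    (h1 : 0 ≤ c0 + c1 * B1 + c2 * CC θ B1) (h2 : 0 ≤ c0 + c1 * B2 + c2 * CC θ B2) :
    0 ≤ c0 + c1 * B + c2 * CC θ B := by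
  rcases (hB1.trans hB2).eq_or_lt with he | hlt
  · have e1 : B = B1 := le_antisymm (by linarith) hB1
    rw [e1]; exact h1
  have hB0 : 0 ≤ B := hB10.trans hB1
  have hB20 : 0 ≤ B2 := hB0.trans hB2
  have hq : 0 ≤ θ + (1 - θ) * (B ^ 2 + B * (B1 + B2) + B1 ^ 2 + B1 * B2 + B2 ^ 2) := by
    have : 0 ≤ (1 - θ) * (B ^ 2 + B * (B1 + B2) + B1 ^ 2 + B1 * B2 + B2 ^ 2) :=
      mul_nonneg (by linarith) (by positivity)
    linarith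
  have hid : (B2 - B1) * (c0 + c1 * B + c2 * CC θ B)
      = (B2 - B) * (c0 + c1 * B1 + c2 * CC θ B1) + (B - B1) * (c0 + c1 * B2 + c2 * CC θ B2)
        + c2 * ((B - B1) * (B2 - B) * (B2 - B1) * (θ + (1 - θ) *
            (B ^ 2 + B * (B1 + B2) + B1 ^ 2 + B1 * B2 + B2 ^ 2))) := by
    unfold CC
    ring
  have hpos : 0 ≤ (B2 - B1) * (c0 + c1 * B + c2 * CC θ B) := by
    rw [hid]
    have a1 := mul_nonneg (by linarith : 0 ≤ B2 - B) h1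
    have a2 := mul_nonneg (by linarith : 0 ≤ B - B1) h2
    have a3 : 0 ≤ c2 * ((B - B1) * (B2 - B) * (B2 - B1) * (θ + (1 - θ) *
            (B ^ 2 + B * (B1 + B2) + B1 ^ 2 + B1 * B2 + B2 ^ 2))) :=
      mul_nonneg hc2 (mul_nonneg (mul_nonneg (mul_nonneg (by linarith) (by linarith))
        (by linarith)) hq)
    linarith
  exact nonneg_of_mul_nonneg_right hpos (by linarith)

lemma CC_nonneg {θ B : ℝ} (hθ0 : 0 ≤ θ) (hθ1 : θ ≤ 1) (hB0 : 0 ≤ B) (hB1 : B ≤ 1) : 0 ≤ CC θ B := by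
  unfold CC
  have h2 : B ^ 2 ≤ 1 := by nlinarith
  have h4 : B ^ 4 ≤ 1 := by nlinarith [sq_nonneg (B ^ 2), sq_nonneg B]
  nlinarith

lemma CC_le_one {θ B : ℝ} (hθ0 : 0 ≤ θ) (hθ1 : θ ≤ 1) : CC θ B ≤ 1 := by
  unfold CC
  have h2 : 0 ≤ θ * B ^ 2 := by positivity
  have h4 : 0 ≤ (1 - θ) * B ^ 4 := mul_nonneg (by linarith) (by positivity)
  linarith

/-- Rational bounds for `log 2`. -/
def Llo : ℚ := 6931471803 / 10000000000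
/-- Rational bounds for `log 2`. -/
def Lhi : ℚ := 6931471808 / 10000000000

lemma Llo_le : ((Llo : ℚ) : ℝ) ≤ Real.log 2 := by
  have := Real.log_two_gt_d9
  unfold Llo
  push_cast
  linarith

lemma le_Lhi : Real.log 2 ≤ ((Lhi : ℚ) : ℝ) := by
  have := Real.log_two_lt_d9
  unfold Lhi
  push_cast
  linarith

/-- lower bound of `NN z` -/
def NNlo (z : ℚ) : ℚ := Llo + (lmLo z - lpHi z) / 2
/-- upper bound of `NN z` -/
def NNhi (z : ℚ) : ℚ := Lhi + (lmHi z - lpLo z) / 2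
/-- lower bound of `ath z` -/
def athLo (z : ℚ) : ℚ := (lpLo z + lmLo z) / 2
/-- upper bound of `ath z` -/
def athHi (z : ℚ) : ℚ := (lpHi z + lmHi z) / 2
/-- upper bound of `psi z` -/
def psiHi (z : ℚ) : ℚ := Lhi - (1 + z) / 2 * lpLo z + (1 - z) / 2 * lmHi z

lemma NN_eq {z : ℝ} (h0 : 0 ≤ z) (h1 : z < 1) :
    NN z = Real.log 2 + ((- Real.log (1 - z)) - Real.log (1 + z)) / 2 := by
  unfold NN
  have e : 1 - z ^ 2 = (1 - z) * (1 + z) := by ring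
  rw [e, Real.log_mul (by linarith) (by linarith)]
  ring

lemma NNlo_le {z : ℚ} (h0 : 0 ≤ z) (h1 : z ≤ 99 / 100) : ((NNlo z : ℚ) : ℝ) ≤ NN (z : ℝ) := by
  have h0' : (0 : ℝ) ≤ z := by exact_mod_cast h0
  have h1q : z < 1 := by linarith
  have h1' : (z : ℝ) < 1 := by exact_mod_cast h1q
  rw [NN_eq h0' h1']
  unfold NNlo
  push_cast
  linarith [Llo_le, lmLo_le h0 h1q, le_lpHi h0 h1]

lemma le_NNhi {z : ℚ} (h0 : 0 ≤ z) (h1 : z ≤ 99 / 100) : NN (z : ℝ) ≤ ((NNhi z : ℚ) : ℝ) := by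
  have h0' : (0 : ℝ) ≤ z := by exact_mod_cast h0
  have h1q : z < 1 := by linarith
  have h1' : (z : ℝ) < 1 := by exact_mod_cast h1q
  rw [NN_eq h0' h1']
  unfold NNhi
  push_cast
  linarith [le_Lhi, le_lmHi h0 h1, lpLo_le h0]

lemma athLo_le {z : ℚ} (h0 : 0 ≤ z) (h1 : z < 1) : ((athLo z : ℚ) : ℝ) ≤ ath (z : ℝ) := by
  have h0' : (0 : ℝ) ≤ z := by exact_mod_cast h0
  have h1' : (z : ℝ) < 1 := by exact_mod_cast h1
  rw [ath_eq (by rw [abs_of_nonneg h0']; exact h1')]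
  unfold athLo
  push_cast
  linarith [lmLo_le h0 h1, lpLo_le h0]

lemma le_athHi {z : ℚ} (h0 : 0 ≤ z) (h1 : z ≤ 99 / 100) : ath (z : ℝ) ≤ ((athHi z : ℚ) : ℝ) := by
  have h0' : (0 : ℝ) ≤ z := by exact_mod_cast h0
  have h1q : z < 1 := by linarith
  have h1' : (z : ℝ) < 1 := by exact_mod_cast h1q
  rw [ath_eq (by rw [abs_of_nonneg h0']; exact h1')]
  unfold athHi
  push_cast
  linarith [le_lmHi h0 h1, le_lpHi h0 h1]

lemma le_psiHi {z : ℚ} (h0 : 0 ≤ z) (h1 : z ≤ 99 / 100) : psi (z : ℝ) ≤ ((psiHi z : ℚ) : ℝ) := by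
  have h0' : (0 : ℝ) ≤ z := by exact_mod_cast h0
  have h1q : z < 1 := by linarith
  have h1' : (z : ℝ) < 1 := by exact_mod_cast h1q
  rw [psi_eq_logs (by rw [abs_of_nonneg h0']; exact h1')]
  unfold psiHi
  push_cast
  have a1 : (1 + (z : ℝ)) / 2 * ((lpLo z : ℚ) : ℝ) ≤ (1 + (z : ℝ)) / 2 * Real.log (1 + z) :=
    mul_le_mul_of_nonneg_left (lpLo_le h0) (by linarith)
  have a2 : (1 - (z : ℝ)) / 2 * (- Real.log (1 - z)) ≤ (1 - (z : ℝ)) / 2 * ((lmHi z : ℚ) : ℝ) :=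
    mul_le_mul_of_nonneg_left (le_lmHi h0 h1) (by linarith)
  linarith [le_Lhi]

/-- The rational version of `CC`. -/
def CCq (θ B : ℚ) : ℚ := 1 - θ * (B * B) - (1 - θ) * ((B * B) * (B * B))

lemma CCq_cast (θ B : ℚ) : ((CCq θ B : ℚ) : ℝ) = CC (θ : ℝ) (B : ℝ) := by
  unfold CCq CC
  push_cast
  ring

/-- The check for a cell `[ρ₁,ρ₂] × [B₁,B₂]` with tangent point `x`. -/
def checkCell (ρ1 ρ2 θ x B1 B2 : ℚ) : Bool :=
  decide (0 < ρ1) && decide (ρ1 ≤ ρ2) && decide (ρ2 ≤ 99 / 100) && decide (0 < x) &&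
  decide (x ≤ 99 / 100) &&
  decide (0 ≤ B1) && decide (B1 ≤ B2) && decide (B2 ≤ 1) && decide (0 ≤ θ) && decide (θ ≤ 1) &&
  decide (0 ≤ NNlo (ρ1 * x)) && decide (0 ≤ athLo x) && decide (0 ≤ psiHi ρ1) &&
  decide (0 ≤ (- (NNhi x * (ρ2 * athHi (ρ2 * x)) * B1) + NNlo (ρ1 * x) * athLo x * B1
      - psiHi ρ1 * NNhi x + psiHi ρ1 * NNlo (ρ1 * x) * CCq θ B1)) &&
  decide (0 ≤ (- (NNhi x * (ρ2 * athHi (ρ2 * x)) * B2) + NNlo (ρ1 * x) * athLo x * B2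
      - psiHi ρ1 * NNhi x + psiHi ρ1 * NNlo (ρ1 * x) * CCq θ B2)) &&
  decide (6 * NNhi (ρ2 * x) * (1 - θ) * (B2 * B2) ≤ (NNlo x - NNhi (ρ2 * x)) * θ)

/-- Soundness of the cell check. -/
theorem checkCell_sound {ρ1 ρ2 θ x B1 B2 : ℚ} (hc : checkCell ρ1 ρ2 θ x B1 B2 = true)
    {ρ B : ℝ} (hρ1 : (ρ1 : ℝ) ≤ ρ) (hρ2 : ρ ≤ (ρ2 : ℝ)) (hB1 : (B1 : ℝ) ≤ B) (hB2 : B ≤ (B2 : ℝ)) :
    0 < (x : ℝ) ∧ (x : ℝ) < 1 ∧ GoodAt ρ (θ : ℝ) B (x : ℝ) := by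
  simp only [checkCell, Bool.and_eq_true, decide_eq_true_eq] at hc
  obtain ⟨⟨⟨⟨⟨⟨⟨⟨⟨⟨⟨⟨⟨⟨⟨h1, h2⟩, h3⟩, h4⟩, h5⟩, h6⟩, h7⟩, h8⟩, h9⟩, h10⟩, h11⟩, h12⟩, h13⟩, h14⟩, h15⟩, h16⟩ := hc
  have r1 : (0 : ℝ) < ρ1 := by exact_mod_cast h1
  have r12 : (ρ1 : ℝ) ≤ ρ2 := by exact_mod_cast h2
  have h3' : ρ2 < 1 := by linarith
  have h5' : x < 1 := by linarith
  have r2 : (ρ2 : ℝ) < 1 := by exact_mod_cast h3'
  have x0 : (0 : ℝ) < x := by exact_mod_cast h4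
  have x1 : (x : ℝ) < 1 := by exact_mod_cast h5'
  have b0 : (0 : ℝ) ≤ B1 := by exact_mod_cast h6
  have b2 : (B2 : ℝ) ≤ 1 := by exact_mod_cast h8
  have t0 : (0 : ℝ) ≤ θ := by exact_mod_cast h9
  have t1 : (θ : ℝ) ≤ 1 := by exact_mod_cast h10
  refine ⟨x0, x1, ?_⟩
  have hρ0 : 0 < ρ := by linarith
  have hρlt : ρ < 1 := by linarith
  have hz1lo : (0 : ℚ) ≤ ρ1 * x := by positivity
  have hz1hi : ρ1 * x ≤ 99 / 100 := by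
    have : ρ1 ≤ 99 / 100 := by linarith
    nlinarith
  have hz2lo : (0 : ℚ) ≤ ρ2 * x := by
    have : 0 < ρ2 := by linarith
    positivity
  have hz2hi : ρ2 * x ≤ 99 / 100 := by nlinarith
  have hzρ : ρ * (x : ℝ) < 1 := by nlinarith
  have hz0 : 0 ≤ ρ * (x : ℝ) := by positivity
  -- the bounds on the cell
  have hz2hi' : ρ2 * x < 1 := by linarith
  have bN1lo : ((NNlo x : ℚ) : ℝ) ≤ NN x := NNlo_le h4.le h5
  have bN1hi : NN x ≤ ((NNhi x : ℚ) : ℝ) := le_NNhi h4.le h5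
  have bAx : ((athLo x : ℚ) : ℝ) ≤ ath x := athLo_le h4.le h5'
  have bN2lo : ((NNlo (ρ1 * x) : ℚ) : ℝ) ≤ NN (ρ * x) := by
    refine (NNlo_le hz1lo hz1hi).trans (NN_mono ?_ ?_ hzρ)
    · push_cast; positivity
    · push_cast; exact mul_le_mul_of_nonneg_right hρ1 x0.le
  have bN2hi : NN (ρ * x) ≤ ((NNhi (ρ2 * x) : ℚ) : ℝ) := by
    refine (NN_mono hz0 ?_ ?_).trans (le_NNhi hz2lo hz2hi)
    · push_cast; exact mul_le_mul_of_nonneg_right hρ2 x0.le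
    · push_cast; exact_mod_cast hz2hi'
  have bA2 : ρ * ath (ρ * x) ≤ ((ρ2 * athHi (ρ2 * x) : ℚ) : ℝ) := by
    have hath : ath (ρ * x) ≤ ((athHi (ρ2 * x) : ℚ) : ℝ) := by
      refine (ath_mono hz0 ?_ ?_).trans (le_athHi hz2lo hz2hi)
      · push_cast; exact mul_le_mul_of_nonneg_right hρ2 x0.le
      · push_cast; exact_mod_cast hz2hi'
    push_cast
    exact mul_le_mul hρ2 hath (ath_nonneg hz0 hzρ) (by linarith)
  have bH : psi ρ ≤ ((psiHi ρ1 : ℚ) : ℝ) := by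
    refine (psi_anti r1.le hρ1 hρlt.le).trans (le_psiHi h1.le (by linarith))
  have hh0 : 0 ≤ psi ρ := psi_nonneg (by rw [abs_of_pos hρ0]; exact hρlt.le)
  have bB0 : 0 ≤ B := b0.trans hB1
  have bB1 : B ≤ 1 := hB2.trans b2
  have hN21 : NN (ρ * x) ≤ NN x := NN_mono hz0 (by nlinarith) x1
  have hE : 0 ≤ -(((NNhi x : ℚ) : ℝ) * ((ρ2 * athHi (ρ2 * x) : ℚ) : ℝ) * B)
      + ((NNlo (ρ1 * x) : ℚ) : ℝ) * ((athLo x : ℚ) : ℝ) * B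
      - ((psiHi ρ1 : ℚ) : ℝ) * ((NNhi x : ℚ) : ℝ)
      + ((psiHi ρ1 : ℚ) : ℝ) * ((NNlo (ρ1 * x) : ℚ) : ℝ) * CC (θ : ℝ) B := by
    have c2 : (0 : ℝ) ≤ ((psiHi ρ1 : ℚ) : ℝ) * ((NNlo (ρ1 * x) : ℚ) : ℝ) := by
      have a : (0 : ℝ) ≤ ((psiHi ρ1 : ℚ) : ℝ) := by exact_mod_cast h13
      have b : (0 : ℝ) ≤ ((NNlo (ρ1 * x) : ℚ) : ℝ) := by exact_mod_cast h11
      positivity
    have e14 : (0 : ℝ) ≤ -(((NNhi x : ℚ) : ℝ) * ((ρ2 * athHi (ρ2 * x) : ℚ) : ℝ) * (B1 : ℝ))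
        + ((NNlo (ρ1 * x) : ℚ) : ℝ) * ((athLo x : ℚ) : ℝ) * (B1 : ℝ)
        - ((psiHi ρ1 : ℚ) : ℝ) * ((NNhi x : ℚ) : ℝ)
        + ((psiHi ρ1 : ℚ) : ℝ) * ((NNlo (ρ1 * x) : ℚ) : ℝ) * ((CCq θ B1 : ℚ) : ℝ) := by
      exact_mod_cast h14
    have e15 : (0 : ℝ) ≤ -(((NNhi x : ℚ) : ℝ) * ((ρ2 * athHi (ρ2 * x) : ℚ) : ℝ) * (B2 : ℝ))
        + ((NNlo (ρ1 * x) : ℚ) : ℝ) * ((athLo x : ℚ) : ℝ) * (B2 : ℝ)
        - ((psiHi ρ1 : ℚ) : ℝ) * ((NNhi x : ℚ) : ℝ)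
        + ((psiHi ρ1 : ℚ) : ℝ) * ((NNlo (ρ1 * x) : ℚ) : ℝ) * ((CCq θ B2 : ℚ) : ℝ) := by
      exact_mod_cast h15
    rw [CCq_cast] at e14 e15
    have := E_chord (c0 := - ((psiHi ρ1 : ℚ) : ℝ) * ((NNhi x : ℚ) : ℝ))
      (c1 := ((NNlo (ρ1 * x) : ℚ) : ℝ) * ((athLo x : ℚ) : ℝ)
        - ((NNhi x : ℚ) : ℝ) * ((ρ2 * athHi (ρ2 * x) : ℚ) : ℝ)) c2 t0 t1 b0 hB1 hB2
      (by linarith) (by linarith)
    linarith
  constructor
  · refine E_lower bN1hi bN2lo hN21 bAx bA2 bH hh0 (by exact_mod_cast h11) (by exact_mod_cast h12)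
      (mul_nonneg hρ0.le (ath_nonneg hz0 hzρ)) (NN_pos' x0.le x1).le bB0
      (CC_nonneg t0 t1 bB0 bB1) (CC_le_one t0 t1) ?_
    linarith
  · -- second condition
    have hq : ((6 * NNhi (ρ2 * x) * (1 - θ) * (B2 * B2) : ℚ) : ℝ)
        ≤ (((NNlo x - NNhi (ρ2 * x)) * θ : ℚ) : ℝ) := by exact_mod_cast h16
    push_cast at hq
    have hB : B ^ 2 ≤ (B2 : ℝ) * B2 := by nlinarith
    have hN2pos := NN_pos' hz0 hzρ
    have a1 : 6 * NN (ρ * x) * (1 - (θ : ℝ)) * B ^ 2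
        ≤ 6 * ((NNhi (ρ2 * x) : ℚ) : ℝ) * (1 - (θ : ℝ)) * ((B2 : ℝ) * B2) := by
      have : 0 ≤ 1 - (θ : ℝ) := by linarith
      have h6 : 6 * NN (ρ * x) * (1 - (θ : ℝ)) ≤ 6 * ((NNhi (ρ2 * x) : ℚ) : ℝ) * (1 - (θ : ℝ)) :=
        mul_le_mul_of_nonneg_right (by linarith) this
      exact mul_le_mul h6 hB (sq_nonneg B) (by
        apply mul_nonneg _ this
        linarith [bN2hi])
    have a2 : (((NNlo x : ℚ) : ℝ) - ((NNhi (ρ2 * x) : ℚ) : ℝ)) * (θ : ℝ)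
        ≤ (NN x - NN (ρ * x)) * (θ : ℝ) :=
      mul_le_mul_of_nonneg_right (by linarith) t0
    linarith

end Vale.Agent.P322T
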