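import Vale.Agent.P322T.Table63
import Vale.Agent.P322V.Cube

/-! The `U_θ` Bellman bound for `63/100 ≤ ρ < 9/10`, and Courtade-Kumar for all `63/100 ≤ ρ < 1`. -/

namespace Vale.Agent.P322T

open Real Vale.Agent.P322V
open Vale.Agent.P322 (avg UU)

/-- The table gives a tangent point for every `ρ` and `B`. -/
theorem exists_good {ρ B : ℝ} (h1 : 63 / 100 ≤ ρ) (h2 : ρ < 9 / 10) (hB0 : 0 < B) (hB : B ≤ 1 / 2) :
    ∃ x : ℝ, 0 < x ∧ x < 1 ∧ GoodAt ρ ((17 / 20 : ℚ) : ℝ) B x := by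
  refine checkTable_sound Th63_check (ρ := ρ) ?_ ?_ hB0 hB
  · push_cast
    linarith only [h1]
  · push_cast
    linarith only [h2]

/-- Step for `B = 0`: the trivial certificate. -/
lemma cert_trivial {ρ : ℝ} (hρpos : 0 < ρ) (hρ1 : ρ < 1) (s : ℝ) (hs : |s| ≤ 1) :
    (0 : ℝ) * s + 1 * psi s ≤ psi (ρ * s) := by
  have h1 : psi s = psi |s| := by
    rcases abs_cases s with ⟨h, _⟩ | ⟨h, _⟩
    · rw [h]
    · rw [h, psi_neg]
  have h2 : psi (ρ * s) = psi |ρ * s| := by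
    rcases abs_cases (ρ * s) with ⟨h, _⟩ | ⟨h, _⟩
    · rw [h]
    · rw [h, psi_neg]
  have h3 : |ρ * s| ≤ |s| := by
    rw [abs_mul, abs_of_pos hρpos]
    exact mul_le_of_le_one_left (abs_nonneg s) hρ1.le
  have h4 := psi_anti (abs_nonneg (ρ * s)) h3 hs
  rw [h1, h2]
  linarith only [h4]

/-- **The `U_θ` bound**: for `63/100 ≤ ρ < 9/10`, every Boolean `±1`-valued function satisfies
`E ψ(P_ρ f) ≥ ψ(ρ) (1 - θ m² - (1-θ) m⁴)`, `θ = 17/20`, `m = E f`. -/
theorem theta_bound {ρ t : ℝ} (h1 : 63 / 100 ≤ ρ) (h2 : ρ < 9 / 10) (ht : Real.exp (-t) = ρ) :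
    ∀ (n : ℕ) (F : (Fin n → Bool) → ℝ), (∀ x, F x = 1 ∨ F x = -1) →
      UT (psi ρ) ((17 / 20 : ℚ) : ℝ) (avg F) ≤ avg (fun y => psi (UU F t y)) := by
  have hρpos : 0 < ρ := by linarith only [h1]
  have hρ1 : ρ < 1 := by linarith only [h2]
  refine bellman_bound hρpos hρ1 ht (UT (psi ρ) ((17 / 20 : ℚ) : ℝ)) ?_ ?_ ?_ ?_
  · unfold UT
    apply le_of_eq
    ring
  · unfold UT
    apply le_of_eq
    ring
  · unfold UT
    apply le_of_eq
    ring
  intro A B hB0 hB1 _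
  rcases hB0.eq_or_lt with rfl | hBpos
  · refine ⟨0, 1, le_rfl, one_pos, le_rfl, cert_trivial hρpos hρ1, ?_⟩
    apply le_of_eq
    simp
  · obtain ⟨x, hx0, hx1, hg⟩ := exists_good h1 h2 hBpos hB1
    refine ⟨alphaX ρ x, betaX ρ x, alphaX_nonneg hρpos hρ1 hx0 hx1, betaX_pos hρpos hρ1 hx0 hx1,
      betaX_le_one hρpos hρ1 hx0 hx1, tangent_cert hρpos hρ1 hx0 hx1, ?_⟩
    exact step_of_good hρpos hρ1 (by norm_num) (by norm_num) hx0 hx1 hg A

/-- `ath z ≥ z + z³/3` on `[0,1)`. -/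
lemma le_ath_cube {z : ℝ} (h0 : 0 ≤ z) (h1 : z < 1) : z + z ^ 3 / 3 ≤ ath z := by
  have hd : ∀ w ∈ Set.Ico (0 : ℝ) 1,
      HasDerivAt (fun v => ath v - (v + v ^ 3 / 3)) (1 / (1 - w ^ 2) - (1 + w ^ 2)) w := by
    intro w hw
    have hw' : |w| < 1 := by
      rw [abs_lt]
      constructor <;> linarith [hw.1, hw.2]
    have h3 : HasDerivAt (fun v : ℝ => v + v ^ 3 / 3) (1 + w ^ 2) w := by
      have h := (hasDerivAt_id' w).fun_add ((hasDerivAt_pow 3 w).div_const 3)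
      refine h.congr_deriv ?_
      norm_num <;> ring
    exact (hasDerivAt_ath hw').sub h3
  have hmono : MonotoneOn (fun v => ath v - (v + v ^ 3 / 3)) (Set.Ico (0 : ℝ) 1) := by
    apply monotoneOn_of_deriv_nonneg (convex_Ico 0 1)
    · exact fun w hw => (hd w hw).continuousAt.continuousWithinAt
    · intro w hw
      rw [interior_Ico] at hw
      exact (hd w ⟨hw.1.le, hw.2⟩).differentiableAt.differentiableWithinAt
    · intro w hw
      rw [interior_Ico] at hw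
      rw [(hd w ⟨hw.1.le, hw.2⟩).deriv]
      have hw2 : 0 < 1 - w ^ 2 := by nlinarith [hw.1, hw.2]
      have : 1 + w ^ 2 ≤ 1 / (1 - w ^ 2) := by
        rw [le_div_iff₀ hw2]
        nlinarith [sq_nonneg (w ^ 2)]
      linarith
  have h := hmono (Set.left_mem_Ico.2 one_pos) ⟨h0, h1⟩ h0
  have hath0 : ath 0 = 0 := ath_zero
  simp only [hath0] at h
  norm_num at h
  linarith

/-- `ψ(m) + m²/2 + m⁴/12 ≤ log 2`. -/
lemma psi_add_le {m : ℝ} (hm : |m| ≤ 1) : psi m + m ^ 2 / 2 + m ^ 4 / 12 ≤ Real.log 2 := by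
  have hpos : ∀ {z : ℝ}, 0 ≤ z → z ≤ 1 → psi z + z ^ 2 / 2 + z ^ 4 / 12 ≤ Real.log 2 := by
    intro z hz0 hz1
    rcases hz1.eq_or_lt with rfl | hz1
    · rw [psi_one]
      have := Real.log_two_gt_d9
      norm_num
      linarith
    have hd : ∀ w ∈ Set.Ico (0 : ℝ) 1,
        HasDerivAt (fun v => psi v + v ^ 2 / 2 + v ^ 4 / 12) (-(ath w) + (w + w ^ 3 / 3)) w := by
      intro w hw
      have hw' : |w| < 1 := by
        rw [abs_lt]
        constructor <;> linarith [hw.1, hw.2]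
      have h2 : HasDerivAt (fun v : ℝ => v ^ 2 / 2) w w := by
        have := (hasDerivAt_pow 2 w).div_const 2
        simpa using this
      have h4 : HasDerivAt (fun v : ℝ => v ^ 4 / 12) (w ^ 3 / 3) w := by
        have h := (hasDerivAt_pow 4 w).div_const 12
        refine h.congr_deriv ?_
        norm_num <;> ring
      have h := ((hasDerivAt_psi hw').fun_add h2).fun_add h4
      refine h.congr_deriv ?_
      ring
    have hanti : AntitoneOn (fun v => psi v + v ^ 2 / 2 + v ^ 4 / 12) (Set.Ico (0 : ℝ) 1) := by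
      apply antitoneOn_of_deriv_nonpos (convex_Ico 0 1)
      · exact fun w hw => (hd w hw).continuousAt.continuousWithinAt
      · intro w hw
        rw [interior_Ico] at hw
        exact (hd w ⟨hw.1.le, hw.2⟩).differentiableAt.differentiableWithinAt
      · intro w hw
        rw [interior_Ico] at hw
        rw [(hd w ⟨hw.1.le, hw.2⟩).deriv]
        have := le_ath_cube hw.1.le hw.2
        linarith
    have h := hanti (Set.left_mem_Ico.2 one_pos) ⟨hz0, hz1⟩ hz0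
    simp only [psi_zero] at h
    norm_num at h
    linarith
  rcases le_total 0 m with h | h
  · exact hpos h (abs_le.1 hm).2
  · have := hpos (z := -m) (by linarith) (by linarith [(abs_le.1 hm).1])
    rw [psi_neg] at this
    have e : (-m) ^ 2 = m ^ 2 := by ring
    have e4 : (-m) ^ 4 = m ^ 4 := by ring
    rwa [e, e4] at this

/-- `ψ(ρ) ≤ 5/9` for `ρ ≥ 63/100`. -/
lemma psi_rho_le {ρ : ℝ} (h0 : 63 / 100 ≤ ρ) (h1 : ρ ≤ 1) : psi ρ ≤ 5 / 9 := by
  have h := psi_anti (a := ((63 / 100 : ℚ) : ℝ)) (b := ρ) (by norm_num) (by push_cast; linarith) h1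
  refine h.trans ((le_psiHi (z := 63 / 100) (by norm_num) (by norm_num)).trans ?_)
  have hq : psiHi (63 / 100) ≤ 5 / 9 := by decide +kernel
  have := (Rat.cast_le (K := ℝ)).mpr hq
  push_cast at this ⊢
  exact this

/-- `ψ(ρ) ≤ 1/2` for `ρ ≥ 9/10`. -/
lemma psi_rho_le_half {ρ : ℝ} (h0 : 9 / 10 ≤ ρ) (h1 : ρ ≤ 1) : psi ρ ≤ 1 / 2 := by
  have h := psi_anti (a := ((9 / 10 : ℚ) : ℝ)) (b := ρ) (by norm_num) (by push_cast; linarith) h1
  refine h.trans ((le_psiHi (z := 9 / 10) (by norm_num) (by norm_num)).trans ?_)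
  have hq : psiHi (9 / 10) ≤ 1 / 2 := by decide +kernel
  have := (Rat.cast_le (K := ℝ)).mpr hq
  push_cast at this ⊢
  exact this

/-- **Courtade-Kumar in `ψ`-form for all `ρ ∈ [63/100, 1)`**, for every `±1`-valued `F`. -/
theorem high_CK {ρ t : ℝ} (h1 : 63 / 100 ≤ ρ) (h2 : ρ < 1) (ht : Real.exp (-t) = ρ) :
    ∀ (n : ℕ) (F : (Fin n → Bool) → ℝ), (∀ x, F x = 1 ∨ F x = -1) →
      psi ρ + psi (avg F) - Real.log 2 ≤ avg (fun y => psi (UU F t y)) := by
  intro n F hF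
  have hm : |avg F| ≤ 1 := abs_avg_le_one (fun x => by
    rcases hF x with h | h <;> rw [h] <;> simp)
  have hh := psi_add_le hm
  have hle := psi_rho_le h1 h2.le
  have hρpos : 0 < ρ := by linarith only [h1]
  have hh0 : 0 ≤ psi ρ := psi_nonneg (by rw [abs_of_pos hρpos]; exact h2.le)
  set m := avg F with hmdef
  have hm2 : 0 ≤ m ^ 2 := sq_nonneg m
  have hm4 : 0 ≤ m ^ 4 := by positivity
  rcases le_or_gt (9 / 10) ρ with h9 | h9
  · have hv := variance_bound h9 h2 ht n F hF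
    rw [← hmdef] at hv
    have hq : psi ρ * m ^ 2 ≤ 1 / 2 * m ^ 2 :=
      mul_le_mul_of_nonneg_right (psi_rho_le_half h9 h2.le) hm2
    linarith only [hv, hq, hh, hm4]
  · have hv := theta_bound h1 h9 ht n F hF
    rw [← hmdef] at hv
    unfold UT at hv
    push_cast at hv
    have q1 : 17 / 20 * (psi ρ * m ^ 2) ≤ 1 / 2 * m ^ 2 := by
      have : 17 / 20 * psi ρ ≤ 1 / 2 := by linarith only [hle]
      have := mul_le_mul_of_nonneg_right this hm2
      linarith only [this]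
    have q2 : 3 / 20 * (psi ρ * m ^ 4) ≤ 1 / 12 * m ^ 4 := by
      have : 3 / 20 * psi ρ ≤ 1 / 12 := by linarith only [hle]
      have := mul_le_mul_of_nonneg_right this hm4
      linarith only [this]
    have e : psi ρ * (1 - 17 / 20 * m ^ 2 - (1 - 17 / 20) * m ^ 4)
        = psi ρ - 17 / 20 * (psi ρ * m ^ 2) - 3 / 20 * (psi ρ * m ^ 4) := by ring
    rw [e] at hv
    linarith only [hv, q1, q2, hh]

end Vale.Agent.P322T
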