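import Vale.Agent.P322V.Cube

/-! The information-theoretic statement of the Courtade-Kumar inequality and its translation to
the `ψ`-form `ψ(ρ) + ψ(E f) - log 2 ≤ E ψ(P_ρ f)`. -/

namespace Vale.Agent.P322T.Info

open Real Finset
open Vale.Agent.P322 (avg UU KK kk signOf UU_add_one avg_sub avg_const avg_mul_left avg_mul_right avg_add avg_UU)

/-- Transition probability of `n` independent binary symmetric channels with crossover `ε`. -/
noncomputable def channel {n : ℕ} (ε : ℝ) (x y : Fin n → Bool) : ℝ :=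
  ∏ i, if x i = y i then 1 - ε else ε

/-- The joint law `P(f(X) = a, Y = y)` when `X` is uniform on the cube. -/
noncomputable def joint {n : ℕ} (ε : ℝ) (f : (Fin n → Bool) → Bool) (a : Bool)
    (y : Fin n → Bool) : ℝ :=
  ∑ x, if f x = a then (1 / 2 ^ n : ℝ) * channel ε x y else 0

/-- The marginal law `P(f(X) = a)`. -/
noncomputable def marginalF {n : ℕ} (ε : ℝ) (f : (Fin n → Bool) → Bool) (a : Bool) : ℝ :=
  ∑ y, joint ε f a y

/-- The marginal law `P(Y = y)`. -/
noncomputable def marginalY {n : ℕ} (ε : ℝ) (f : (Fin n → Bool) → Bool)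
    (y : Fin n → Bool) : ℝ :=
  ∑ a, joint ε f a y

/-- The mutual information `I(f(X);Y)` in bits (with the usual convention `0 log 0 = 0`). -/
noncomputable def mutualInfo {n : ℕ} (ε : ℝ) (f : (Fin n → Bool) → Bool) : ℝ :=
  ∑ a, ∑ y, joint ε f a y * Real.logb 2 (joint ε f a y / (marginalF ε f a * marginalY ε f y))

/-- The binary entropy in bits. -/
noncomputable def h2 (p : ℝ) : ℝ := -p * Real.logb 2 p - (1 - p) * Real.logb 2 (1 - p)

lemma channel_eq_KK {n : ℕ} {ε T : ℝ} (hT : Real.exp (-T) = 1 - 2 * ε) (x y : Fin n → Bool) :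
    KK T x y = channel ε x y := by
  unfold KK channel
  apply Finset.prod_congr rfl
  intro i _
  unfold kk
  rw [hT]
  cases x i <;> cases y i <;> simp <;> ring

lemma channel_nonneg {n : ℕ} {ε : ℝ} (h0 : 0 ≤ ε) (h1 : ε ≤ 1) (x y : Fin n → Bool) :
    0 ≤ channel ε x y := by
  unfold channel
  apply Finset.prod_nonneg
  intro i _
  split_ifs <;> linarith

lemma channel_sum_left {n : ℕ} (ε : ℝ) (y : Fin n → Bool) : ∑ x, channel ε x y = 1 := by
  unfold channel
  have h := Finset.prod_univ_sum (fun _ : Fin n => (Finset.univ : Finset Bool))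
    (fun i b => if b = y i then 1 - ε else ε)
  rw [Fintype.piFinset_univ] at h
  rw [← h]
  apply Finset.prod_eq_one
  intro i _
  rw [Fintype.sum_bool]
  cases y i <;> simp

lemma channel_sum_right {n : ℕ} (ε : ℝ) (x : Fin n → Bool) : ∑ y, channel ε x y = 1 := by
  unfold channel
  have h := Finset.prod_univ_sum (fun _ : Fin n => (Finset.univ : Finset Bool))
    (fun i b => if x i = b then 1 - ε else ε)
  rw [Fintype.piFinset_univ] at h
  rw [← h]
  apply Finset.prod_eq_one
  intro i _
  rw [Fintype.sum_bool]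
  cases x i <;> simp

/-- The conditional probability `P(f(X) = true | Y = y)`. -/
noncomputable def post {n : ℕ} (ε : ℝ) (f : (Fin n → Bool) → Bool) (y : Fin n → Bool) : ℝ :=
  ∑ x, if f x = true then channel ε x y else 0

lemma post_nonneg {n : ℕ} {ε : ℝ} (h0 : 0 ≤ ε) (h1 : ε ≤ 1) (f : (Fin n → Bool) → Bool)
    (y : Fin n → Bool) : 0 ≤ post ε f y := by
  unfold post
  apply Finset.sum_nonneg
  intro x _
  split_ifs
  · exact channel_nonneg h0 h1 x y
  · exact le_rfl

lemma one_sub_post {n : ℕ} (ε : ℝ) (f : (Fin n → Bool) → Bool) (y : Fin n → Bool) :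
    1 - post ε f y = ∑ x, if f x = false then channel ε x y else 0 := by
  unfold post
  rw [← channel_sum_left ε y, ← Finset.sum_sub_distrib]
  apply Finset.sum_congr rfl
  intro x _
  cases f x <;> simp

lemma one_sub_post_nonneg {n : ℕ} {ε : ℝ} (h0 : 0 ≤ ε) (h1 : ε ≤ 1)
    (f : (Fin n → Bool) → Bool) (y : Fin n → Bool) : 0 ≤ 1 - post ε f y := by
  rw [one_sub_post]
  apply Finset.sum_nonneg
  intro x _
  split_ifs
  · exact channel_nonneg h0 h1 x y
  · exact le_rfl

lemma joint_true {n : ℕ} (ε : ℝ) (f : (Fin n → Bool) → Bool) (y : Fin n → Bool) :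
    joint ε f true y = post ε f y * (1 / 2 ^ n) := by
  unfold joint post
  rw [Finset.sum_mul]
  apply Finset.sum_congr rfl
  intro x _
  split_ifs <;> ring

lemma joint_false {n : ℕ} (ε : ℝ) (f : (Fin n → Bool) → Bool) (y : Fin n → Bool) :
    joint ε f false y = (1 - post ε f y) * (1 / 2 ^ n) := by
  rw [one_sub_post]
  unfold joint
  rw [Finset.sum_mul]
  apply Finset.sum_congr rfl
  intro x _
  split_ifs <;> ring

lemma marginalY_eq {n : ℕ} (ε : ℝ) (f : (Fin n → Bool) → Bool) (y : Fin n → Bool) :
    marginalY ε f y = 1 / 2 ^ n := by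
  unfold marginalY
  rw [Fintype.sum_bool, joint_true, joint_false]
  ring

lemma marginalF_true {n : ℕ} (ε : ℝ) (f : (Fin n → Bool) → Bool) :
    marginalF ε f true = avg (post ε f) := by
  unfold marginalF avg
  simp only [joint_true]
  rw [← Finset.sum_mul]
  ring

lemma marginalF_false {n : ℕ} (ε : ℝ) (f : (Fin n → Bool) → Bool) :
    marginalF ε f false = 1 - avg (post ε f) := by
  unfold marginalF
  simp only [joint_false]
  rw [← Finset.sum_mul]
  have h := avg_sub (fun _ : Fin n → Bool => (1 : ℝ)) (post ε f)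
  rw [avg_const] at h
  rw [← h]
  unfold avg
  ring

lemma term_identity {w p : ℝ} (h : p = 0 → w = 0) :
    w * Real.log (w / p) = w * Real.log w - w * Real.log p := by
  by_cases hw : w = 0
  · simp [hw]
  · have hp : p ≠ 0 := fun hp => hw (h hp)
    rw [Real.log_div hw hp]
    ring

lemma avg_eq_zero_imp {n : ℕ} {g : (Fin n → Bool) → ℝ} (hg : ∀ y, 0 ≤ g y) (h : avg g = 0)
    (y : Fin n → Bool) : g y = 0 := by
  unfold avg at h
  have hne : (2 : ℝ) ^ n ≠ 0 := by positivity
  have h2 : ∑ x, g x = 0 := by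
    rcases div_eq_zero_iff.mp h with h3 | h3
    · exact h3
    · exact absurd h3 hne
  exact (Finset.sum_eq_zero_iff_of_nonneg (fun x _ => hg x)).mp h2 y (Finset.mem_univ y)

/-- The mutual information in nats is the entropy of `f(X)` minus the conditional entropy. -/
lemma mutualInfo_eq {n : ℕ} {ε : ℝ} (h0 : 0 ≤ ε) (h1 : ε ≤ 1) (f : (Fin n → Bool) → Bool) :
    mutualInfo ε f * Real.log 2
      = Real.binEntropy (avg (post ε f)) - avg (fun y => Real.binEntropy (post ε f y)) := by
  set w : (Fin n → Bool) → ℝ := post ε f with hw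
  set p : ℝ := avg w with hp
  have hw0 : ∀ y, 0 ≤ w y := post_nonneg h0 h1 f
  have hw1 : ∀ y, 0 ≤ 1 - w y := one_sub_post_nonneg h0 h1 f
  have hpavg : avg (fun y => 1 - w y) = 1 - p := by
    rw [avg_sub, avg_const]
  have hp0 : ∀ y, p = 0 → w y = 0 := fun y h => avg_eq_zero_imp hw0 h y
  have hp1 : ∀ y, 1 - p = 0 → 1 - w y = 0 := fun y h =>
    avg_eq_zero_imp (g := fun y => 1 - w y) hw1 (by rw [hpavg]; exact h) y
  have hN : (1 / 2 ^ n : ℝ) ≠ 0 := by positivity
  have hlog2 : Real.log 2 ≠ 0 := (Real.log_pos (by norm_num)).ne'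
  have htrue : ∀ y, joint ε f true y
      * Real.logb 2 (joint ε f true y / (marginalF ε f true * marginalY ε f y)) * Real.log 2
      = (w y * Real.log (w y) - w y * Real.log p) * (1 / 2 ^ n) := by
    intro y
    rw [joint_true, marginalF_true, marginalY_eq, mul_div_mul_right _ _ hN]
    rw [mul_assoc, Real.logb, div_mul_cancel₀ _ hlog2, mul_right_comm, term_identity (hp0 y)]
  have hfalse : ∀ y, joint ε f false y
      * Real.logb 2 (joint ε f false y / (marginalF ε f false * marginalY ε f y)) * Real.log 2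
      = ((1 - w y) * Real.log (1 - w y) - (1 - w y) * Real.log (1 - p)) * (1 / 2 ^ n) := by
    intro y
    rw [joint_false, marginalF_false, marginalY_eq, mul_div_mul_right _ _ hN]
    rw [mul_assoc, Real.logb, div_mul_cancel₀ _ hlog2, mul_right_comm, term_identity (hp1 y)]
  unfold mutualInfo
  rw [Fintype.sum_bool, add_mul, Finset.sum_mul, Finset.sum_mul]
  simp only [htrue, hfalse]
  have hbin : ∀ y, Real.binEntropy (w y) = - (w y * Real.log (w y)) - (1 - w y) * Real.log (1 - w y) := by
    intro y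
    unfold Real.binEntropy
    rw [Real.log_inv, Real.log_inv]
    ring
  have hbinp : Real.binEntropy p = - (p * Real.log p) - (1 - p) * Real.log (1 - p) := by
    unfold Real.binEntropy
    rw [Real.log_inv, Real.log_inv]
    ring
  rw [hbinp]
  simp only [hbin]
  have e1 : ∑ y, (w y * Real.log (w y) - w y * Real.log p) * (1 / 2 ^ n : ℝ)
      = avg (fun y => w y * Real.log (w y)) - p * Real.log p := by
    rw [← avg_mul_right, ← avg_sub]
    unfold avg
    rw [← Finset.sum_mul]
    ring
  have e2 : ∑ y, ((1 - w y) * Real.log (1 - w y) - (1 - w y) * Real.log (1 - p)) * (1 / 2 ^ n : ℝ)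
      = avg (fun y => (1 - w y) * Real.log (1 - w y)) - (1 - p) * Real.log (1 - p) := by
    rw [← hpavg, ← avg_mul_right, hpavg, ← avg_sub]
    unfold avg
    rw [← Finset.sum_mul]
    ring
  rw [e1, e2]
  have e3 : avg (fun y => - (w y * Real.log (w y)) - (1 - w y) * Real.log (1 - w y))
      = - avg (fun y => w y * Real.log (w y)) - avg (fun y => (1 - w y) * Real.log (1 - w y)) := by
    have : (fun y => - (w y * Real.log (w y)) - (1 - w y) * Real.log (1 - w y))
        = (fun y => (-1 : ℝ) * (w y * Real.log (w y)) - (1 - w y) * Real.log (1 - w y)) := by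
      funext y; ring
    rw [this, avg_sub, avg_mul_left]
    ring
  rw [e3]
  ring

lemma post_eq_UU {n : ℕ} {ε T : ℝ} (hT : Real.exp (-T) = 1 - 2 * ε)
    (f : (Fin n → Bool) → Bool) (y : Fin n → Bool) :
    (1 + UU (signOf f) T y) / 2 = post ε f y := by
  rw [UU_add_one]
  unfold post
  rw [Finset.sum_div]
  apply Finset.sum_congr rfl
  intro x _
  rw [channel_eq_KK hT]
  unfold signOf
  cases f x <;> simp <;> ring

lemma avg_post_eq {n : ℕ} {ε T : ℝ} (hT : Real.exp (-T) = 1 - 2 * ε)
    (f : (Fin n → Bool) → Bool) : (1 + avg (signOf f)) / 2 = avg (post ε f) := by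
  have : post ε f = fun y => (1 / 2 : ℝ) * (1 + UU (signOf f) T y) := by
    funext y
    rw [← post_eq_UU hT f y]
    ring
  rw [this, avg_mul_left, avg_add, avg_const, avg_UU]
  ring

/-- The exact statement obtained from the `ψ`-form at noise `0 < ε < 1/2`. -/
theorem ck_of_psi_form {n : ℕ} (f : (Fin n → Bool) → Bool) {ε T : ℝ} (h0 : 0 < ε) (h1 : ε < 1 / 2)
    (hT : Real.exp (-T) = 1 - 2 * ε)
    (hmain : Vale.Agent.P322V.psi (1 - 2 * ε) + Vale.Agent.P322V.psi (avg (signOf f)) - Real.log 2
      ≤ avg (fun y => Vale.Agent.P322V.psi (UU (signOf f) T y))) :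
    mutualInfo ε f ≤ 1 - h2 ε := by
  have hlog2 : 0 < Real.log 2 := Real.log_pos (by norm_num)
  have hε1 : ε ≤ 1 := by linarith
  have hid := mutualInfo_eq h0.le hε1 f
  have hent : Real.binEntropy ε = h2 ε * Real.log 2 := by
    unfold Real.binEntropy h2 Real.logb
    rw [Real.log_inv, Real.log_inv]
    field_simp
    ring
  suffices hs : mutualInfo ε f * Real.log 2 ≤ Real.log 2 - Real.binEntropy ε by
    rw [hent] at hs
    have : mutualInfo ε f * Real.log 2 ≤ (1 - h2 ε) * Real.log 2 := by
      calc mutualInfo ε f * Real.log 2 ≤ Real.log 2 - h2 ε * Real.log 2 := hs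
        _ = (1 - h2 ε) * Real.log 2 := by ring
    exact le_of_mul_le_mul_right this hlog2
  rw [hid]
  have hcond : avg (fun y => Vale.Agent.P322V.psi (UU (signOf f) T y))
      = avg (fun y => Real.binEntropy (post ε f y)) := by
    congr 1
    funext y
    unfold Vale.Agent.P322V.psi
    rw [post_eq_UU hT]
  have hh0 : Vale.Agent.P322V.psi (1 - 2 * ε) = Real.binEntropy ε := by
    unfold Vale.Agent.P322V.psi
    rw [← Real.binEntropy_one_sub]
    congr 1
    ring
  have hmarg : Real.binEntropy (avg (post ε f)) = Vale.Agent.P322V.psi (avg (signOf f)) := by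
    unfold Vale.Agent.P322V.psi
    rw [avg_post_eq hT]
  rw [hmarg]
  rw [hcond, hh0] at hmain
  linarith only [hmain]

/-- The noiseless case. -/
theorem ck_zero {n : ℕ} (f : (Fin n → Bool) → Bool) : mutualInfo 0 f ≤ 1 - h2 0 := by
  have hlog2 : 0 < Real.log 2 := Real.log_pos (by norm_num)
  have hid := mutualInfo_eq (ε := 0) le_rfl zero_le_one f
  have hent : h2 0 = 0 := by
    unfold h2
    simp
  rw [hent, sub_zero]
  have hw0 := post_nonneg (le_refl (0 : ℝ)) (zero_le_one) f
  have hw1 := one_sub_post_nonneg (le_refl (0 : ℝ)) (zero_le_one) f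
  have h3 : 0 ≤ avg (fun y => Real.binEntropy (post 0 f y)) := by
    unfold avg
    apply div_nonneg _ (by positivity)
    apply Finset.sum_nonneg
    intro y _
    exact Real.binEntropy_nonneg (hw0 y) (by linarith [hw1 y])
  have h4 := Real.binEntropy_le_log_two (p := avg (post 0 f))
  have h5 : mutualInfo 0 f * Real.log 2 ≤ 1 * Real.log 2 := by
    rw [hid]
    linarith
  exact le_of_mul_le_mul_right h5 hlog2

/-- The useless channel. -/
theorem ck_half {n : ℕ} (f : (Fin n → Bool) → Bool) : mutualInfo (1 / 2) f ≤ 1 - h2 (1 / 2) := by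
  have hlog2 : 0 < Real.log 2 := Real.log_pos (by norm_num)
  have hid := mutualInfo_eq (ε := 1 / 2) (by norm_num) (by norm_num) f
  have hent : h2 (1 / 2) = 1 := by
    unfold h2 Real.logb
    have e : (1 : ℝ) / 2 = 2⁻¹ := by norm_num
    have e1 : (1 : ℝ) - 1 / 2 = 2⁻¹ := by norm_num
    rw [e1, e, Real.log_inv]
    field_simp
    ring
  rw [hent]
  -- the posterior does not depend on `y`
  have hconst : ∀ y y' : Fin n → Bool, post (1 / 2) f y = post (1 / 2) f y' := by
    intro y y'
    unfold post channel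
    apply Finset.sum_congr rfl
    intro x _
    split_ifs
    · apply Finset.prod_congr rfl
      intro i _
      split_ifs <;> norm_num
    · rfl
  have havg : ∀ y0 : Fin n → Bool, avg (post (1 / 2) f) = post (1 / 2) f y0 := by
    intro y0
    have : post (1 / 2) f = fun _ => post (1 / 2) f y0 := by
      funext y
      exact hconst y y0
    rw [this, avg_const]
  have hz : mutualInfo (1 / 2) f * Real.log 2 = 0 := by
    rw [hid]
    have h0 : (fun _ : Fin n → Bool => fun _ : Fin n → Bool => (0 : ℝ)) = fun _ _ => 0 := rfl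
    have y0 : Fin n → Bool := fun _ => true
    have : (fun y => Real.binEntropy (post (1 / 2) f y))
        = fun _ => Real.binEntropy (post (1 / 2) f y0) := by
      funext y
      rw [hconst y y0]
    rw [this, avg_const, havg y0]
    ring
  have h6 : mutualInfo (1 / 2) f = 0 := by
    rcases mul_eq_zero.mp hz with h | h
    · exact h
    · exact absurd h hlog2.ne'
  rw [h6]
  norm_num

end Vale.Agent.P322T.Info
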