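import Mathlib

/-! Verified rational enclosures for `log (1+z)` and `-log (1-z)` through the `atanh` series. -/

namespace Vale.Agent.P322T

open Real Finset

/-- The fixed-point scale. -/
def SC : ℕ := 2 ^ 64

/-- Fixed-point lower bound of `SC * ∑_{j<n} w^(2(k+j)+1) / (2(k+j)+1)`. -/
def serLo (W2 : ℕ) : ℕ → ℕ → ℕ → ℕ
  | 0, _, _ => 0
  | n + 1, k, P => P / (2 * k + 1) + serLo W2 n (k + 1) (P * W2 / SC)

/-- Fixed-point upper bound of `SC * (∑_{j<n} w^(2(k+j)+1) / (2(k+j)+1) + tail)`. -/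
def serHi (W2 : ℕ) : ℕ → ℕ → ℕ → ℕ
  | 0, k, P => P * SC / ((2 * k + 1) * (SC - W2)) + 1
  | n + 1, k, P => P / (2 * k + 1) + 1 + serHi W2 n (k + 1) (P * W2 / SC + 1)

/-- The real partial sum. -/
noncomputable def S (w : ℝ) (n : ℕ) : ℝ :=
  ∑ k ∈ range n, (2 : ℝ) * (1 / (2 * (k : ℝ) + 1)) * w ^ (2 * k + 1)

lemma S_succ (w : ℝ) (n : ℕ) :
    S w (n + 1) = S w n + (2 : ℝ) * (1 / (2 * (n : ℝ) + 1)) * w ^ (2 * n + 1) := by
  unfold S
  rw [sum_range_succ]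

lemma log_lower {w : ℝ} (h0 : 0 ≤ w) (h1 : w < 1) (n : ℕ) :
    S w n ≤ Real.log (1 + w) - Real.log (1 - w) := by
  have hs := Real.hasSum_log_sub_log_of_abs_lt_one (x := w) (by rw [abs_of_nonneg h0]; exact h1)
  exact sum_le_hasSum (range n) (fun k _ => by positivity) hs

/-- Tail bound. -/
noncomputable def T (w : ℝ) (n : ℕ) : ℝ :=
  S w n + 2 * w ^ (2 * n + 1) / ((2 * (n : ℝ) + 1) * (1 - w ^ 2))

lemma T_succ_le {w : ℝ} (h0 : 0 ≤ w) (h1 : w < 1) (n : ℕ) : T w (n + 1) ≤ T w n := by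
  unfold T
  rw [S_succ]
  have hd : 0 < 1 - w ^ 2 := by nlinarith
  have hn : 0 < 2 * (n : ℝ) + 1 := by positivity
  have hn' : 0 < 2 * ((n + 1 : ℕ) : ℝ) + 1 := by positivity
  have hle : (1 : ℝ) / (2 * ((n + 1 : ℕ) : ℝ) + 1) ≤ 1 / (2 * (n : ℝ) + 1) := by
    apply one_div_le_one_div_of_le hn
    push_cast
    linarith
  have hp : 0 ≤ w ^ (2 * n + 1) := by positivity
  have e1 : 2 * w ^ (2 * (n + 1) + 1) / ((2 * ((n + 1 : ℕ) : ℝ) + 1) * (1 - w ^ 2))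
      = 2 * w ^ (2 * n + 1) * w ^ 2 / (1 - w ^ 2) * (1 / (2 * ((n + 1 : ℕ) : ℝ) + 1)) := by
    have : w ^ (2 * (n + 1) + 1) = w ^ (2 * n + 1) * w ^ 2 := by ring
    rw [this]
    field_simp
  have e2 : 2 * w ^ (2 * n + 1) / ((2 * (n : ℝ) + 1) * (1 - w ^ 2))
      = 2 * w ^ (2 * n + 1) / (1 - w ^ 2) * (1 / (2 * (n : ℝ) + 1)) := by
    field_simp
  rw [e1, e2]
  have hq : 0 ≤ 2 * w ^ (2 * n + 1) * w ^ 2 / (1 - w ^ 2) := by positivity
  have h3 := mul_le_mul_of_nonneg_left hle hq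
  have e3 : 2 * (1 / (2 * (n : ℝ) + 1)) * w ^ (2 * n + 1)
      + 2 * w ^ (2 * n + 1) * w ^ 2 / (1 - w ^ 2) * (1 / (2 * (n : ℝ) + 1))
      = 2 * w ^ (2 * n + 1) / (1 - w ^ 2) * (1 / (2 * (n : ℝ) + 1)) := by
    field_simp
    ring
  linarith

lemma log_upper {w : ℝ} (h0 : 0 ≤ w) (h1 : w < 1) (n : ℕ) :
    Real.log (1 + w) - Real.log (1 - w) ≤ T w n := by
  have hs := Real.hasSum_log_sub_log_of_abs_lt_one (x := w) (by rw [abs_of_nonneg h0]; exact h1)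
  have hT : ∀ m, T w (n + m) ≤ T w n := by
    intro m
    induction m with
    | zero => simp
    | succ m ih => exact (T_succ_le h0 h1 (n + m)).trans ih
  have hd : 0 < 1 - w ^ 2 := by nlinarith
  have hb : ∀ m, S w (n + m) ≤ T w n := by
    intro m
    refine le_trans ?_ (hT m)
    unfold T
    have : 0 ≤ 2 * w ^ (2 * (n + m) + 1) / ((2 * ((n + m : ℕ) : ℝ) + 1) * (1 - w ^ 2)) := by
      positivity
    linarith
  refine le_of_tendsto hs.tendsto_sum_nat ?_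
  filter_upwards [Filter.eventually_ge_atTop n] with m hm
  obtain ⟨k, rfl⟩ := Nat.exists_eq_add_of_le hm
  exact hb k

lemma SC_pos : (0 : ℝ) < (SC : ℝ) := by
  unfold SC
  positivity

lemma nat_div_le (a b : ℕ) : ((a / b : ℕ) : ℝ) ≤ (a : ℝ) / (b : ℝ) := Nat.cast_div_le

lemma nat_le_div_add_one (a b : ℕ) (hb : 0 < b) : (a : ℝ) / (b : ℝ) ≤ ((a / b : ℕ) : ℝ) + 1 := by
  have hb' : (0 : ℝ) < b := by exact_mod_cast hb
  rw [div_le_iff₀ hb']
  have h := Nat.lt_mul_div_succ a hb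
  have h2 : a ≤ b * (a / b + 1) := h.le
  have h3 : (a : ℝ) ≤ (b : ℝ) * (((a / b : ℕ) : ℝ) + 1) := by exact_mod_cast h2
  linarith

/-- Soundness of `serLo`. -/
lemma serLo_le {w : ℝ} (hw : 0 ≤ w) {W2 : ℕ} (hW2 : (W2 : ℝ) / SC ≤ w ^ 2) (n k P : ℕ)
    (hP : (P : ℝ) / SC ≤ w ^ (2 * k + 1)) :
    2 * ((serLo W2 n k P : ℕ) : ℝ) / SC ≤ S w (k + n) - S w k := by
  have hS := SC_pos
  induction n generalizing k P with
  | zero => simp [serLo]
  | succ n ih =>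
    have hn : 0 < 2 * (k : ℝ) + 1 := by positivity
    have hP' : ((P * W2 / SC : ℕ) : ℝ) / SC ≤ w ^ (2 * (k + 1) + 1) := by
      have h1 : ((P * W2 / SC : ℕ) : ℝ) ≤ ((P * W2 : ℕ) : ℝ) / SC := nat_div_le _ _
      have h2 : ((P * W2 / SC : ℕ) : ℝ) / SC ≤ ((P : ℝ) / SC) * ((W2 : ℝ) / SC) := by
        have e : ((P : ℝ) / SC) * ((W2 : ℝ) / SC) = ((P * W2 : ℕ) : ℝ) / SC / SC := by
          push_cast
          field_simp
        rw [e]
        exact div_le_div_of_nonneg_right h1 hS.le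
      have e : w ^ (2 * (k + 1) + 1) = w ^ (2 * k + 1) * w ^ 2 := by ring
      rw [e]
      refine h2.trans (mul_le_mul hP hW2 (by positivity) (by positivity))
    have hih := ih (k + 1) _ hP'
    rw [serLo]
    have e0 : k + (n + 1) = k + 1 + n := by ring
    rw [e0, S_succ w k] at *
    have h3 : ((P / (2 * k + 1) : ℕ) : ℝ) / SC ≤ w ^ (2 * k + 1) / (2 * (k : ℝ) + 1) := by
      have h4 : ((P / (2 * k + 1) : ℕ) : ℝ) ≤ (P : ℝ) / (2 * (k : ℝ) + 1) := by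
        have := nat_div_le P (2 * k + 1)
        push_cast at this
        exact this
      calc ((P / (2 * k + 1) : ℕ) : ℝ) / SC ≤ ((P : ℝ) / (2 * (k : ℝ) + 1)) / SC :=
            div_le_div_of_nonneg_right h4 hS.le
        _ = ((P : ℝ) / SC) / (2 * (k : ℝ) + 1) := by ring
        _ ≤ _ := div_le_div_of_nonneg_right hP hn.le
    push_cast
    have e1 : 2 * (((P / (2 * k + 1) : ℕ) : ℝ) + ((serLo W2 n (k + 1) (P * W2 / SC) : ℕ) : ℝ)) / SC
        = 2 * (((P / (2 * k + 1) : ℕ) : ℝ) / SC)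
          + 2 * ((serLo W2 n (k + 1) (P * W2 / SC) : ℕ) : ℝ) / SC := by ring
    rw [e1]
    have e2 : (2 : ℝ) * (1 / (2 * (k : ℝ) + 1)) * w ^ (2 * k + 1)
        = 2 * (w ^ (2 * k + 1) / (2 * (k : ℝ) + 1)) := by ring
    linarith

/-- Soundness of `serHi`. -/
lemma le_serHi {w : ℝ} (hw : 0 ≤ w) {W2 : ℕ} (hW2 : w ^ 2 ≤ (W2 : ℝ) / SC) (hW2' : W2 < SC)
    (n k P : ℕ) (hP : w ^ (2 * k + 1) ≤ (P : ℝ) / SC) :
    T w (k + n) - S w k ≤ 2 * ((serHi W2 n k P : ℕ) : ℝ) / SC := by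
  have hS := SC_pos
  have hWreal : (W2 : ℝ) < SC := by exact_mod_cast hW2'
  have hw1 : w ^ 2 < 1 := by
    refine lt_of_le_of_lt hW2 ?_
    rw [div_lt_one hS]
    exact hWreal
  induction n generalizing k P with
  | zero =>
    simp only [add_zero, serHi]
    unfold T
    have hn : 0 < 2 * (k : ℝ) + 1 := by positivity
    have hd : 0 < 1 - w ^ 2 := by linarith
    have hd2 : 0 < (SC : ℝ) - W2 := by linarith
    have hpos : 0 < (2 * k + 1) * (SC - W2) := by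
      apply Nat.mul_pos (by omega)
      omega
    have hc : (((2 * k + 1) * (SC - W2) : ℕ) : ℝ) = (2 * (k : ℝ) + 1) * ((SC : ℝ) - W2) := by
      push_cast [Nat.cast_sub hW2'.le]
      ring
    have h1 := nat_le_div_add_one (P * SC) ((2 * k + 1) * (SC - W2)) hpos
    rw [hc] at h1
    push_cast at h1 ⊢
    have h2 : w ^ (2 * k + 1) / ((2 * (k : ℝ) + 1) * (1 - w ^ 2))
        ≤ ((P : ℝ) * SC / ((2 * (k : ℝ) + 1) * ((SC : ℝ) - W2))) / SC := by
      have e : ((P : ℝ) * SC / ((2 * (k : ℝ) + 1) * ((SC : ℝ) - W2))) / SC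
          = ((P : ℝ) / SC) / ((2 * (k : ℝ) + 1) * (1 - (W2 : ℝ) / SC)) := by
        field_simp
      rw [e]
      apply div_le_div₀ (by positivity) hP (by
        apply mul_pos hn
        have : (W2 : ℝ) / SC < 1 := by rw [div_lt_one hS]; exact hWreal
        linarith)
      apply mul_le_mul_of_nonneg_left _ hn.le
      linarith
    have h3 := div_le_div_of_nonneg_right h1 hS.le
    have e3 : 2 * w ^ (2 * k + 1) / ((2 * (k : ℝ) + 1) * (1 - w ^ 2))
        = 2 * (w ^ (2 * k + 1) / ((2 * (k : ℝ) + 1) * (1 - w ^ 2))) := by ring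
    have e4 : 2 * (((P * SC / ((2 * k + 1) * (SC - W2)) : ℕ) : ℝ) + 1) / SC
        = 2 * ((((P * SC / ((2 * k + 1) * (SC - W2)) : ℕ) : ℝ) + 1) / SC) := by ring
    rw [e4]
    linarith
  | succ n ih =>
    have hn : 0 < 2 * (k : ℝ) + 1 := by positivity
    have hP' : w ^ (2 * (k + 1) + 1) ≤ ((P * W2 / SC + 1 : ℕ) : ℝ) / SC := by
      have h1 : ((P * W2 : ℕ) : ℝ) / SC ≤ ((P * W2 / SC : ℕ) : ℝ) + 1 :=
        nat_le_div_add_one _ _ (by unfold SC; positivity)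
      have h2 : ((P : ℝ) / SC) * ((W2 : ℝ) / SC) ≤ ((P * W2 / SC + 1 : ℕ) : ℝ) / SC := by
        have e : ((P : ℝ) / SC) * ((W2 : ℝ) / SC) = ((P * W2 : ℕ) : ℝ) / SC / SC := by
          push_cast
          field_simp
        rw [e]
        push_cast at h1 ⊢
        exact div_le_div_of_nonneg_right h1 hS.le
      have e : w ^ (2 * (k + 1) + 1) = w ^ (2 * k + 1) * w ^ 2 := by ring
      rw [e]
      exact (mul_le_mul hP hW2 (by positivity) (by positivity)).trans h2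
    have hih := ih (k + 1) _ hP'
    rw [serHi]
    have e0 : k + (n + 1) = k + 1 + n := by ring
    rw [e0]
    rw [S_succ w k] at hih
    have h3 : w ^ (2 * k + 1) / (2 * (k : ℝ) + 1) ≤ (((P / (2 * k + 1) : ℕ) : ℝ) + 1) / SC := by
      have h4 : (P : ℝ) / (2 * (k : ℝ) + 1) ≤ ((P / (2 * k + 1) : ℕ) : ℝ) + 1 := by
        have := nat_le_div_add_one P (2 * k + 1) (by omega)
        push_cast at this
        exact this
      calc w ^ (2 * k + 1) / (2 * (k : ℝ) + 1) ≤ ((P : ℝ) / SC) / (2 * (k : ℝ) + 1) :=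
            div_le_div_of_nonneg_right hP hn.le
        _ = ((P : ℝ) / (2 * (k : ℝ) + 1)) / SC := by ring
        _ ≤ _ := div_le_div_of_nonneg_right h4 hS.le
    push_cast
    have e1 : 2 * (((P / (2 * k + 1) : ℕ) : ℝ) + 1
          + ((serHi W2 n (k + 1) (P * W2 / SC + 1) : ℕ) : ℝ)) / SC
        = 2 * ((((P / (2 * k + 1) : ℕ) : ℝ) + 1) / SC)
          + 2 * ((serHi W2 n (k + 1) (P * W2 / SC + 1) : ℕ) : ℝ) / SC := by ring
    rw [e1]
    have e2 : (2 : ℝ) * (1 / (2 * (k : ℝ) + 1)) * w ^ (2 * k + 1)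
        = 2 * (w ^ (2 * k + 1) / (2 * (k : ℝ) + 1)) := by ring
    linarith

/-- `⌊q · SC⌋` for a rational `q ≥ 0`. -/
def flS (q : ℚ) : ℕ := q.num.toNat * SC / q.den

lemma flS_le {q : ℚ} (hq : 0 ≤ q) : ((flS q : ℕ) : ℝ) / SC ≤ (q : ℝ) := by
  have hS := SC_pos
  have hd : (0 : ℝ) < q.den := by exact_mod_cast q.den_pos
  have hn : ((q.num.toNat : ℕ) : ℝ) = (q.num : ℝ) := by
    have : ((q.num.toNat : ℤ)) = q.num := Int.toNat_of_nonneg (Rat.num_nonneg.mpr hq)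
    exact_mod_cast this
  have hq' : (q : ℝ) = (q.num : ℝ) / (q.den : ℝ) := by
    exact (Rat.cast_def q)
  have h1 := nat_div_le (q.num.toNat * SC) q.den
  rw [hq']
  rw [div_le_iff₀ hS]
  unfold flS
  push_cast at h1
  rw [hn] at h1
  calc _ ≤ _ := h1
    _ = _ := by ring

lemma le_flS {q : ℚ} (hq : 0 ≤ q) : (q : ℝ) ≤ (((flS q + 1 : ℕ) : ℝ)) / SC := by
  have hS := SC_pos
  have hd : (0 : ℝ) < q.den := by exact_mod_cast q.den_pos
  have hn : ((q.num.toNat : ℕ) : ℝ) = (q.num : ℝ) := by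
    have : ((q.num.toNat : ℤ)) = q.num := Int.toNat_of_nonneg (Rat.num_nonneg.mpr hq)
    exact_mod_cast this
  have hq' : (q : ℝ) = (q.num : ℝ) / (q.den : ℝ) := by
    exact (Rat.cast_def q)
  have h1 := nat_le_div_add_one (q.num.toNat * SC) q.den q.den_pos
  rw [hq']
  rw [le_div_iff₀ hS]
  unfold flS
  push_cast at h1 ⊢
  rw [hn] at h1
  calc _ = _ := by ring
    _ ≤ _ := h1

/-- Lower bound for `log (1+w) - log (1-w)`: fixed-point series, `n` terms. -/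
def atLo (w : ℚ) (n : ℕ) : ℚ :=
  ((2 * serLo (flS w * flS w / SC) n 0 (flS w) : ℕ) : ℚ) / (SC : ℚ)

/-- Upper bound for `log (1+w) - log (1-w)`: fixed-point series, `n` terms.
If the fixed-point square is not below `1` this returns `log`-free nonsense, which the lemma
excludes by its hypothesis. -/
def atHi (w : ℚ) (n : ℕ) : ℚ :=
  ((2 * serHi ((flS w + 1) * (flS w + 1) / SC + 1) n 0 (flS w + 1) : ℕ) : ℚ) / (SC : ℚ)

lemma S_zero (w : ℝ) : S w 0 = 0 := by simp [S]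

lemma atLo_le {w : ℚ} (h0 : 0 ≤ w) (h1 : w < 1) (n : ℕ) :
    ((atLo w n : ℚ) : ℝ) ≤ Real.log (1 + (w : ℝ)) - Real.log (1 - (w : ℝ)) := by
  have h0' : (0 : ℝ) ≤ w := by exact_mod_cast h0
  have h1' : (w : ℝ) < 1 := by exact_mod_cast h1
  have hS := SC_pos
  have hf := flS_le h0
  have hW : (((flS w * flS w / SC : ℕ) : ℝ)) / SC ≤ (w : ℝ) ^ 2 := by
    have a1 : ((flS w * flS w / SC : ℕ) : ℝ) ≤ ((flS w * flS w : ℕ) : ℝ) / SC := nat_div_le _ _
    have a2 : ((flS w * flS w / SC : ℕ) : ℝ) / SC ≤ ((flS w : ℝ) / SC) * ((flS w : ℝ) / SC) := by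
      have e : ((flS w : ℝ) / SC) * ((flS w : ℝ) / SC) = ((flS w * flS w : ℕ) : ℝ) / SC / SC := by
        push_cast
        field_simp
      rw [e]
      exact div_le_div_of_nonneg_right a1 hS.le
    refine a2.trans ?_
    rw [sq]
    exact mul_le_mul hf hf (by positivity) h0'
  have := serLo_le h0' hW n 0 (flS w) (by simpa using hf)
  rw [zero_add, S_zero, sub_zero] at this
  refine le_trans ?_ (log_lower h0' h1' n)
  unfold atLo
  push_cast
  push_cast at this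
  exact this

lemma le_atHi {w : ℚ} (h0 : 0 ≤ w) (h1 : w < 1) (n : ℕ)
    (hs : (flS w + 1) * (flS w + 1) / SC + 1 < SC) :
    Real.log (1 + (w : ℝ)) - Real.log (1 - (w : ℝ)) ≤ ((atHi w n : ℚ) : ℝ) := by
  have h0' : (0 : ℝ) ≤ w := by exact_mod_cast h0
  have h1' : (w : ℝ) < 1 := by exact_mod_cast h1
  have hS := SC_pos
  have hf := le_flS h0
  have hW : (w : ℝ) ^ 2 ≤ (((flS w + 1) * (flS w + 1) / SC + 1 : ℕ) : ℝ) / SC := by
    have a1 : (((flS w + 1) * (flS w + 1) : ℕ) : ℝ) / SC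
        ≤ (((flS w + 1) * (flS w + 1) / SC : ℕ) : ℝ) + 1 :=
      nat_le_div_add_one _ _ (by unfold SC; positivity)
    have a2 : (((flS w + 1 : ℕ) : ℝ) / SC) * (((flS w + 1 : ℕ) : ℝ) / SC)
        ≤ (((flS w + 1) * (flS w + 1) / SC + 1 : ℕ) : ℝ) / SC := by
      have e : (((flS w + 1 : ℕ) : ℝ) / SC) * (((flS w + 1 : ℕ) : ℝ) / SC)
          = (((flS w + 1) * (flS w + 1) : ℕ) : ℝ) / SC / SC := by
        push_cast
        field_simp
      rw [e]
      have := div_le_div_of_nonneg_right a1 hS.le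
      push_cast at this ⊢
      exact this
    refine le_trans ?_ a2
    rw [sq]
    exact mul_le_mul hf hf h0' (by positivity)
  have := le_serHi h0' hW hs n 0 (flS w + 1) (by simpa using hf)
  rw [zero_add, S_zero, sub_zero] at this
  refine (log_upper h0' h1' n).trans ?_
  unfold atHi
  push_cast
  push_cast at this
  exact this

lemma hs_of_le {w : ℚ} (h0 : 0 ≤ w) (h1 : w ≤ 99 / 100) :
    (flS w + 1) * (flS w + 1) / SC + 1 < SC := by
  have hS := SC_pos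
  have hS' : (2 : ℝ) ^ 64 = (SC : ℝ) := by unfold SC; push_cast; ring
  have hSbig : (1000 : ℝ) ≤ (SC : ℝ) := by
    rw [← hS']
    norm_num
  have h1' : (w : ℝ) ≤ 99 / 100 := by
    have h2 : ((w : ℚ) : ℝ) ≤ ((99 / 100 : ℚ) : ℝ) := Rat.cast_le.mpr h1
    push_cast at h2
    exact h2
  have a0 := flS_le h0
  have a1 : ((flS w : ℕ) : ℝ) ≤ 99 / 100 * SC := by
    rw [div_le_iff₀ hS] at a0
    nlinarith
  have a2 : ((flS w + 1 : ℕ) : ℝ) ≤ 995 / 1000 * SC := by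
    push_cast
    linarith
  have a3 : (((flS w + 1) * (flS w + 1) / SC : ℕ) : ℝ) ≤ 995 / 1000 * 995 / 1000 * SC := by
    have b1 : (((flS w + 1) * (flS w + 1) / SC : ℕ) : ℝ)
        ≤ (((flS w + 1) * (flS w + 1) : ℕ) : ℝ) / SC := nat_div_le _ _
    refine b1.trans ?_
    rw [div_le_iff₀ hS]
    push_cast at a2 ⊢
    have a4 : (0 : ℝ) ≤ (flS w : ℝ) + 1 := by positivity
    nlinarith
  have a5 : (((flS w + 1) * (flS w + 1) / SC + 1 : ℕ) : ℝ) < (SC : ℝ) := by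
    push_cast at a3 ⊢
    nlinarith
  exact_mod_cast a5

/-- Number of terms giving about `10⁻⁹` accuracy for the argument `w`. -/
def nT (w : ℚ) : ℕ :=
  if w ≤ 1 / 3 then 10 else if w ≤ 1 / 2 then 15 else if w ≤ 2 / 3 then 26 else
  if w ≤ 3 / 4 then 37 else if w ≤ 5 / 6 then 56 else if w ≤ 9 / 10 then 100 else 200

/-- Enclosure of `log (1+z)`. -/
def lpLo (z : ℚ) : ℚ := atLo (z / (2 + z)) (nT (z / (2 + z)))
/-- Enclosure of `log (1+z)`. -/
def lpHi (z : ℚ) : ℚ := atHi (z / (2 + z)) (nT (z / (2 + z)))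
/-- Enclosure of `-log (1-z)`. -/
def lmLo (z : ℚ) : ℚ := atLo (z / (2 - z)) (nT (z / (2 - z)))
/-- Enclosure of `-log (1-z)`. -/
def lmHi (z : ℚ) : ℚ := atHi (z / (2 - z)) (nT (z / (2 - z)))

lemma log_one_add_eq {z : ℝ} (h0 : 0 ≤ z) :
    Real.log (1 + z / (2 + z)) - Real.log (1 - z / (2 + z)) = Real.log (1 + z) := by
  have h2 : 0 < 2 + z := by linarith
  have e1 : 0 < 1 + z / (2 + z) := by positivity
  have e2 : 0 < 1 - z / (2 + z) := by
    rw [sub_pos, div_lt_one h2]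
    linarith
  rw [← Real.log_div e1.ne' e2.ne']
  congr 1
  field_simp
  ring

lemma log_one_sub_eq {z : ℝ} (h0 : 0 ≤ z) (h1 : z < 1) :
    Real.log (1 + z / (2 - z)) - Real.log (1 - z / (2 - z)) = - Real.log (1 - z) := by
  have h2 : 0 < 2 - z := by linarith
  have h3 : 0 < 1 - z := by linarith
  have e1 : 0 < 1 + z / (2 - z) := by positivity
  have e2 : 0 < 1 - z / (2 - z) := by
    rw [sub_pos, div_lt_one h2]
    linarith
  rw [← Real.log_div e1.ne' e2.ne', ← Real.log_inv]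
  congr 1
  have h4 : 1 - z / (2 - z) = 2 * (1 - z) / (2 - z) := by
    field_simp
    ring
  have h5 : 1 + z / (2 - z) = 2 / (2 - z) := by
    field_simp
    ring
  rw [h4, h5]
  field_simp

lemma w1_bounds {z : ℚ} (h0 : 0 ≤ z) : 0 ≤ z / (2 + z) ∧ z / (2 + z) < 1 := by
  have h2 : 0 < 2 + z := by linarith
  exact ⟨by positivity, by rw [div_lt_one h2]; linarith⟩

lemma w2_bounds {z : ℚ} (h0 : 0 ≤ z) (h1 : z < 1) : 0 ≤ z / (2 - z) ∧ z / (2 - z) < 1 := by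
  have h2 : 0 < 2 - z := by linarith
  exact ⟨by positivity, by rw [div_lt_one h2]; linarith⟩

lemma lpLo_le {z : ℚ} (h0 : 0 ≤ z) : ((lpLo z : ℚ) : ℝ) ≤ Real.log (1 + (z : ℝ)) := by
  obtain ⟨a, b⟩ := w1_bounds h0
  have := atLo_le a b (nT (z / (2 + z)))
  push_cast at this
  rwa [log_one_add_eq (by exact_mod_cast h0)] at this

lemma le_lpHi {z : ℚ} (h0 : 0 ≤ z) (h1 : z ≤ 99 / 100) :
    Real.log (1 + (z : ℝ)) ≤ ((lpHi z : ℚ) : ℝ) := by
  obtain ⟨a, b⟩ := w1_bounds h0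
  have hw : z / (2 + z) ≤ 99 / 100 := by
    rw [div_le_iff₀ (by linarith)]
    linarith
  have := le_atHi a b (nT (z / (2 + z))) (hs_of_le a hw)
  push_cast at this
  rwa [log_one_add_eq (by exact_mod_cast h0)] at this

lemma lmLo_le {z : ℚ} (h0 : 0 ≤ z) (h1 : z < 1) :
    ((lmLo z : ℚ) : ℝ) ≤ - Real.log (1 - (z : ℝ)) := by
  obtain ⟨a, b⟩ := w2_bounds h0 h1
  have := atLo_le a b (nT (z / (2 - z)))
  push_cast at this
  rwa [log_one_sub_eq (by exact_mod_cast h0) (by exact_mod_cast h1)] at this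

lemma le_lmHi {z : ℚ} (h0 : 0 ≤ z) (h1 : z ≤ 99 / 100) :
    - Real.log (1 - (z : ℝ)) ≤ ((lmHi z : ℚ) : ℝ) := by
  have h1' : z < 1 := by linarith
  obtain ⟨a, b⟩ := w2_bounds h0 h1'
  have hw : z / (2 - z) ≤ 99 / 100 := by
    rw [div_le_iff₀ (by linarith)]
    linarith
  have := le_atHi a b (nT (z / (2 - z))) (hs_of_le a hw)
  push_cast at this
  rwa [log_one_sub_eq (by exact_mod_cast h0) (by exact_mod_cast h1')] at this

end Vale.Agent.P322T
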