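import Vale.Agent.P322T.Cell

/-! Small values of `B`: the tangent point `x = κ B`, rows and tables of checks. -/

namespace Vale.Agent.P322T

open Real Vale.Agent.P322V

lemma two_mul_le_log_sub {w : ℝ} (h0 : 0 ≤ w) (h1 : w < 1) :
    2 * w ≤ Real.log (1 + w) - Real.log (1 - w) := by
  have := log_lower h0 h1 1
  simpa [S] using this

lemma log_sub_le {w : ℝ} (h0 : 0 ≤ w) (h1 : w < 1) :
    Real.log (1 + w) - Real.log (1 - w) ≤ 2 * w / (1 - w ^ 2) := by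
  have := log_upper h0 h1 0
  simpa [T, S] using this

lemma le_ath_self {z : ℝ} (h0 : 0 ≤ z) (h1 : z < 1) : z ≤ ath z := by
  rw [ath_eq (by rw [abs_of_nonneg h0]; exact h1)]
  linarith [two_mul_le_log_sub h0 h1]

lemma ath_le_self {z G : ℝ} (h0 : 0 ≤ z) (h1 : z < 1) (hG : 1 ≤ G * (1 - z ^ 2)) :
    ath z ≤ G * z := by
  rw [ath_eq (by rw [abs_of_nonneg h0]; exact h1)]
  have h2 := log_sub_le h0 h1
  have hd : 0 < 1 - z ^ 2 := by nlinarith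
  have h3 : 2 * z / (1 - z ^ 2) ≤ 2 * (G * z) := by
    rw [div_le_iff₀ hd]
    nlinarith
  linarith

/-- `a z = -½ log (1-z²)` lower bound. -/
lemma NN_ge {z : ℝ} (h1 : |z| < 1) : Real.log 2 + z ^ 2 / 2 ≤ NN z := by
  unfold NN
  have hz : 0 < 1 - z ^ 2 := by
    have := sq_lt_one_iff_abs_lt_one z |>.mpr h1
    linarith
  have := Real.log_le_sub_one_of_pos hz
  linarith

/-- `a z = -½ log (1-z²)` upper bound. -/
lemma NN_le {z G : ℝ} (h1 : |z| < 1) (hG : 1 ≤ G * (1 - z ^ 2)) :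
    NN z ≤ Real.log 2 + G * z ^ 2 / 2 := by
  unfold NN
  have hz : 0 < 1 - z ^ 2 := by
    have := sq_lt_one_iff_abs_lt_one z |>.mpr h1
    linarith
  have h2 := Real.one_sub_inv_le_log_of_pos hz
  have h3 : (1 - z ^ 2)⁻¹ ≤ G := by
    rw [inv_le_iff_one_le_mul₀ hz]
    linarith
  have h4 : (1 - z ^ 2)⁻¹ * (1 - z ^ 2) = 1 := inv_mul_cancel₀ hz.ne'
  have h5 : 1 - (1 - z ^ 2)⁻¹ = - (z ^ 2 * (1 - z ^ 2)⁻¹) := by
    nlinarith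
  rw [h5] at h2
  have h6 : z ^ 2 * (1 - z ^ 2)⁻¹ ≤ z ^ 2 * G := mul_le_mul_of_nonneg_left h3 (sq_nonneg z)
  linarith

lemma G_ge_one {G d : ℝ} (h : 1 ≤ G * d) (d0 : 0 < d) (d1 : d ≤ 1) : 0 < G ∧ 1 ≤ G := by
  have hG : 0 < G := by
    by_contra hneg
    push Not at hneg
    have := mul_nonpos_of_nonpos_of_nonneg hneg d0.le
    linarith
  refine ⟨hG, ?_⟩
  have : G * d ≤ G * 1 := mul_le_mul_of_nonneg_left d1 hG.le
  linarith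

/-- First small-`B` condition, all the analytic bounds given. -/
lemma small_first {N1 N2 X Z h H C W G ρ1 ρ2 ρ κ B B0 θ x z Llo L : ℝ}
    (hκ : 0 < κ) (hB0 : 0 < B) (hB : B ≤ B0) (hθ0 : 0 ≤ θ) (hθ1 : θ ≤ 1)
    (hx : x = κ * B) (hz : z = ρ * x) (hρ0 : 0 < ρ) (hρ1 : ρ1 ≤ ρ) (hρ2 : ρ ≤ ρ2) (hρ10 : 0 < ρ1)
    (hGpos : 0 < G) (hLlo : Llo ≤ L)
    (hN2L : L ≤ N2) (hN2pos : 0 < N2) (hX : x ≤ X) (hZ : Z ≤ G * (ρ * z)) (hZ0 : 0 ≤ Z)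
    (hN1W : N1 ≤ W) (hN21 : N2 ≤ N1) (hh0 : 0 ≤ h) (hH : h ≤ H) (hH0 : 0 ≤ H)
    (hWpos : 0 < W)
    (hN12 : N1 - N2 ≤ G * x ^ 2 / 2 - z ^ 2 / 2)
    (hC : C = 1 - θ * B ^ 2 - (1 - θ) * B ^ 4)
    (hM : 0 ≤ Llo * κ - W * (G * ρ2 ^ 2 * κ)
      - H * ((G - ρ1 ^ 2) * κ ^ 2 / 2 + W * (θ + (1 - θ) * B0 ^ 2))) :
    h * N1 ≤ N2 * X * B + h * N2 * C - N1 * Z * B := by
  have hB2pos : 0 < B ^ 2 := by positivity
  have hxpos : 0 < x := by rw [hx]; positivity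
  have hρ2sq : ρ ^ 2 ≤ ρ2 ^ 2 := pow_le_pow_left₀ hρ0.le hρ2 2
  have hρ1sq : ρ1 ^ 2 ≤ ρ ^ 2 := pow_le_pow_left₀ hρ10.le hρ1 2
  have hBsq : B ^ 2 ≤ B0 ^ 2 := pow_le_pow_left₀ hB0.le hB 2
  have t1 : Llo * κ * B ^ 2 ≤ N2 * X * B := by
    have hX0 : 0 ≤ X := hxpos.le.trans hX
    have c1 : Llo * x ≤ N2 * X := by
      have hLlo' : Llo ≤ N2 := hLlo.trans hN2L
      calc Llo * x ≤ N2 * x := mul_le_mul_of_nonneg_right hLlo' hxpos.le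
        _ ≤ N2 * X := mul_le_mul_of_nonneg_left hX hN2pos.le
    have c2 := mul_le_mul_of_nonneg_right c1 hB0.le
    have e : Llo * x * B = Llo * κ * B ^ 2 := by rw [hx]; ring
    linarith only [c2, e]
  have t2 : N1 * Z * B ≤ W * (G * ρ2 ^ 2 * κ) * B ^ 2 := by
    have c1 : Z ≤ G * ρ2 ^ 2 * x := by
      refine hZ.trans ?_
      have e : G * (ρ * z) = G * ρ ^ 2 * x := by rw [hz]; ring
      rw [e]
      exact mul_le_mul_of_nonneg_right (mul_le_mul_of_nonneg_left hρ2sq hGpos.le) hxpos.le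
    have c3 : N1 * Z ≤ W * (G * ρ2 ^ 2 * x) := mul_le_mul hN1W c1 hZ0 hWpos.le
    have c4 := mul_le_mul_of_nonneg_right c3 hB0.le
    have e : W * (G * ρ2 ^ 2 * x) * B = W * (G * ρ2 ^ 2 * κ) * B ^ 2 := by rw [hx]; ring
    linarith only [c4, e]
  have hC1 : C ≤ 1 := by
    rw [hC]
    have h2 : 0 ≤ θ * B ^ 2 := by positivity
    have h4 : 0 ≤ (1 - θ) * B ^ 4 := mul_nonneg (by linarith only [hθ1]) (by positivity)
    linarith only [h2, h4]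
  have t3 : N1 - N2 * C ≤ ((G - ρ1 ^ 2) * κ ^ 2 / 2 + W * (θ + (1 - θ) * B0 ^ 2)) * B ^ 2 := by
    have c1 : N1 - N2 ≤ (G - ρ1 ^ 2) * κ ^ 2 / 2 * B ^ 2 := by
      refine hN12.trans ?_
      have e1 : x ^ 2 = κ ^ 2 * B ^ 2 := by rw [hx]; ring
      have e2 : z ^ 2 = ρ ^ 2 * (κ ^ 2 * B ^ 2) := by rw [hz, hx]; ring
      rw [e1, e2]
      have h9 : 0 ≤ κ ^ 2 * B ^ 2 := by positivity
      have := mul_le_mul_of_nonneg_right hρ1sq h9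
      linarith only [this]
    have c2 : 1 - C ≤ (θ + (1 - θ) * B0 ^ 2) * B ^ 2 := by
      rw [hC]
      have h4 : B ^ 4 = B ^ 2 * B ^ 2 := by ring
      rw [h4]
      have h5 : (1 - θ) * (B ^ 2 * B ^ 2) ≤ (1 - θ) * (B0 ^ 2 * B ^ 2) :=
        mul_le_mul_of_nonneg_left (mul_le_mul_of_nonneg_right hBsq hB2pos.le)
          (by linarith only [hθ1])
      linarith only [h5]
    have c3 : 0 ≤ 1 - C := by linarith only [hC1]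
    have c4 : N2 * (1 - C) ≤ W * ((θ + (1 - θ) * B0 ^ 2) * B ^ 2) :=
      mul_le_mul (hN21.trans hN1W) c2 c3 hWpos.le
    linarith only [c1, c4]
  have t3pos : 0 ≤ N1 - N2 * C := by
    have : N2 * C ≤ N2 * 1 := mul_le_mul_of_nonneg_left hC1 hN2pos.le
    linarith only [this, hN21]
  have t4 : h * (N1 - N2 * C)
      ≤ H * (((G - ρ1 ^ 2) * κ ^ 2 / 2 + W * (θ + (1 - θ) * B0 ^ 2)) * B ^ 2) :=
    mul_le_mul hH t3 t3pos hH0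
  have hfinal := mul_nonneg hM hB2pos.le
  linarith only [t1, t2, t4, hfinal]

/-- Second small-`B` condition, all the analytic bounds given. -/
lemma small_second {N1 N2 G ρ2 ρ κ B θ x z Lhi x0 : ℝ}
    (hκ : 0 < κ) (hB0 : 0 < B) (hθ0 : 0 ≤ θ) (hθ1 : θ ≤ 1)
    (hx : x = κ * B) (hz : z = ρ * x) (hρ0 : 0 < ρ) (hρ2 : ρ ≤ ρ2)
    (hGpos : 0 < G) (hxx0 : x ^ 2 ≤ x0 ^ 2)
    (hN2 : N2 ≤ Lhi + G * z ^ 2 / 2) (hN12 : x ^ 2 / 2 - G * z ^ 2 / 2 ≤ N1 - N2)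
    (hMb : 6 * (1 - θ) * (Lhi + G * ρ2 ^ 2 * x0 ^ 2 / 2)
      ≤ θ * (κ ^ 2 / 2) * (1 - G * ρ2 ^ 2)) :
    6 * N2 * (1 - θ) * B ^ 2 ≤ (N1 - N2) * θ := by
  have hB2pos : 0 < B ^ 2 := by positivity
  have hρ2sq : ρ ^ 2 ≤ ρ2 ^ 2 := pow_le_pow_left₀ hρ0.le hρ2 2
  have e2 : z ^ 2 = ρ ^ 2 * x ^ 2 := by rw [hz]; ring
  have c1 : N2 ≤ Lhi + G * ρ2 ^ 2 * x0 ^ 2 / 2 := by
    have h1 : ρ ^ 2 * x ^ 2 ≤ ρ2 ^ 2 * x0 ^ 2 :=
      mul_le_mul hρ2sq hxx0 (sq_nonneg x) (sq_nonneg ρ2)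
    have h2 := mul_le_mul_of_nonneg_left h1 hGpos.le
    rw [e2] at hN2
    linarith only [hN2, h2]
  have c2 : κ ^ 2 / 2 * B ^ 2 * (1 - G * ρ2 ^ 2) ≤ N1 - N2 := by
    refine le_trans ?_ hN12
    have e1 : x ^ 2 = κ ^ 2 * B ^ 2 := by rw [hx]; ring
    rw [e2, e1]
    have h1 : G * ρ ^ 2 ≤ G * ρ2 ^ 2 := mul_le_mul_of_nonneg_left hρ2sq hGpos.le
    have h9 : 0 ≤ κ ^ 2 * B ^ 2 := by positivity
    have := mul_le_mul_of_nonneg_right h1 h9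
    linarith only [this]
  have c3 : 6 * N2 * (1 - θ) * B ^ 2 ≤ 6 * (Lhi + G * ρ2 ^ 2 * x0 ^ 2 / 2) * (1 - θ) * B ^ 2 := by
    have h0 : 0 ≤ (1 - θ) * B ^ 2 := mul_nonneg (by linarith only [hθ1]) hB2pos.le
    have := mul_le_mul_of_nonneg_right c1 h0
    linarith only [this]
  have c4 := mul_le_mul_of_nonneg_right hMb hB2pos.le
  have c5 := mul_le_mul_of_nonneg_right c2 hθ0
  linarith only [c3, c4, c5]

/-- The small-`B` lemma, with real parameters. -/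
lemma small_real {ρ1 ρ2 ρ θ κ B0 B H G Llo Lhi : ℝ} (hρ10 : 0 < ρ1) (hρ1 : ρ1 ≤ ρ) (hρ2 : ρ ≤ ρ2)
    (hρ21 : ρ2 < 1) (hθ0 : 0 ≤ θ) (hθ1 : θ ≤ 1) (hκ : 0 < κ) (hB0 : 0 < B) (hB : B ≤ B0)
    (hx0 : κ * B0 < 1) (hG : 1 ≤ G * (1 - (κ * B0) ^ 2)) (hH : psi ρ ≤ H) (hH0 : 0 ≤ H)
    (hLlo : Llo ≤ Real.log 2) (hLhi : Real.log 2 ≤ Lhi)
    (hM : 0 ≤ Llo * κ - (Lhi + G * (κ * B0) ^ 2 / 2) * (G * ρ2 ^ 2 * κ)
      - H * ((G - ρ1 ^ 2) * κ ^ 2 / 2 + (Lhi + G * (κ * B0) ^ 2 / 2) * (θ + (1 - θ) * B0 ^ 2)))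
    (hMb : 6 * (1 - θ) * (Lhi + G * ρ2 ^ 2 * (κ * B0) ^ 2 / 2)
      ≤ θ * (κ ^ 2 / 2) * (1 - G * ρ2 ^ 2)) :
    GoodAt ρ θ B (κ * B) := by
  have hxpos : 0 < κ * B := by positivity
  have hxx0 : κ * B ≤ κ * B0 := mul_le_mul_of_nonneg_left hB hκ.le
  have hx1 : κ * B < 1 := by linarith only [hxx0, hx0]
  have hρ0 : 0 < ρ := by linarith only [hρ10, hρ1]
  have hρ1' : ρ < 1 := by linarith only [hρ2, hρ21]
  have hL : 0 < Real.log 2 := Real.log_pos one_lt_two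
  have hx0pos : 0 < κ * B0 := by linarith only [hxpos, hxx0]
  have hsq : (κ * B) ^ 2 ≤ (κ * B0) ^ 2 := pow_le_pow_left₀ hxpos.le hxx0 2
  have hd : 0 < 1 - (κ * B0) ^ 2 := by
    have : (κ * B0) ^ 2 < 1 := pow_lt_one₀ hx0pos.le hx0 (by norm_num)
    linarith only [this]
  have hd1 : 1 - (κ * B0) ^ 2 ≤ 1 := by linarith only [sq_nonneg (κ * B0)]
  obtain ⟨hGpos, hG1⟩ := G_ge_one hG hd hd1
  have hGx : 1 ≤ G * (1 - (κ * B) ^ 2) :=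
    hG.trans (mul_le_mul_of_nonneg_left (by linarith only [hsq]) hGpos.le)
  set x := κ * B with hx
  set z := ρ * x with hz
  have hz0 : 0 < z := by positivity
  have hzx : z ≤ x := mul_le_of_le_one_left hxpos.le hρ1'.le
  have hz1 : z < 1 := by linarith only [hzx, hx1]
  have hzsq : z ^ 2 ≤ x ^ 2 := pow_le_pow_left₀ hz0.le hzx 2
  have hGz : 1 ≤ G * (1 - z ^ 2) :=
    hGx.trans (mul_le_mul_of_nonneg_left (by linarith only [hzsq]) hGpos.le)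
  have habsx : |x| < 1 := by rw [abs_of_pos hxpos]; exact hx1
  have habsz : |z| < 1 := by rw [abs_of_pos hz0]; exact hz1
  have a1lo := NN_ge habsx
  have a1hi := NN_le habsx hGx
  have a2lo := NN_ge habsz
  have a2hi := NN_le habsz hGz
  have athx := le_ath_self hxpos.le hx1
  have athz := ath_le_self hz0.le hz1 hGz
  have athz0 := ath_nonneg hz0.le hz1
  have hh0 : 0 ≤ psi ρ := psi_nonneg (by rw [abs_of_pos hρ0]; exact hρ1'.le)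
  have hWpos : 0 < Lhi + G * (κ * B0) ^ 2 / 2 := by
    have : 0 ≤ G * (κ * B0) ^ 2 / 2 := by positivity
    linarith only [this, hLhi, hL]
  have hN1W : NN x ≤ Lhi + G * (κ * B0) ^ 2 / 2 := by
    have := mul_le_mul_of_nonneg_left hsq hGpos.le
    linarith only [this, a1hi, hLhi]
  have hN2N1 : NN z ≤ NN x := NN_mono hz0.le hzx hx1
  have hN2L : Real.log 2 ≤ NN z := by linarith only [a2lo, sq_nonneg z]
  have hN2pos : 0 < NN z := by linarith only [hN2L, hL]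
  constructor
  · refine small_first hκ hB0 hB hθ0 hθ1 hx hz hρ0 hρ1 hρ2 hρ10 hGpos hLlo hN2L hN2pos athx ?_
      (mul_nonneg hρ0.le athz0) hN1W hN2N1 hh0 hH hH0 hWpos (by linarith only [a1hi, a2lo]) rfl hM
    exact (mul_le_mul_of_nonneg_left athz hρ0.le).trans (le_of_eq (by ring))
  · refine small_second hκ hB0 hθ0 hθ1 hx hz hρ0 hρ2 hGpos hsq (by linarith only [a2hi, hLhi])
      (by linarith only [a1lo, a2hi]) hMb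

/-- The check of the small-`B` lemma on `[ρ₁,ρ₂]`. -/
def checkSmall (ρ1 ρ2 θ κ B0 : ℚ) : Bool :=
  let x0 := κ * B0
  let G := 1 / (1 - x0 * x0)
  let W := Lhi + G * (x0 * x0) / 2
  decide (0 < ρ1) && decide (ρ1 ≤ ρ2) && decide (ρ2 ≤ 99 / 100) && decide (0 < κ) &&
  decide (0 < B0) && decide (x0 ≤ 99 / 100) && decide (0 ≤ θ) && decide (θ ≤ 1) &&
  decide (0 ≤ psiHi ρ1) &&
  decide (0 ≤ Llo * κ - W * (G * (ρ2 * ρ2) * κ)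
      - psiHi ρ1 * ((G - ρ1 * ρ1) * (κ * κ) / 2 + W * (θ + (1 - θ) * (B0 * B0)))) &&
  decide (6 * (1 - θ) * (Lhi + G * (ρ2 * ρ2) * (x0 * x0) / 2)
      ≤ θ * (κ * κ / 2) * (1 - G * (ρ2 * ρ2)))

theorem checkSmall_sound {ρ1 ρ2 θ κ B0 : ℚ} (hc : checkSmall ρ1 ρ2 θ κ B0 = true)
    {ρ B : ℝ} (hρ1 : (ρ1 : ℝ) ≤ ρ) (hρ2 : ρ ≤ (ρ2 : ℝ)) (hB0 : 0 < B) (hB : B ≤ (B0 : ℝ)) :
    0 < (κ : ℝ) * B ∧ (κ : ℝ) * B < 1 ∧ GoodAt ρ (θ : ℝ) B ((κ : ℝ) * B) := by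
  simp only [checkSmall, Bool.and_eq_true, decide_eq_true_eq] at hc
  obtain ⟨⟨⟨⟨⟨⟨⟨⟨⟨⟨h1, h2⟩, h3⟩, h4⟩, h5⟩, h6⟩, h7⟩, h8⟩, h9⟩, h10⟩, h11⟩ := hc
  have r1 : (0 : ℝ) < ρ1 := by exact_mod_cast h1
  have h3' : ρ2 < 1 := by linarith
  have r2 : (ρ2 : ℝ) < 1 := by exact_mod_cast h3'
  have k0 : (0 : ℝ) < κ := by exact_mod_cast h4
  have t0 : (0 : ℝ) ≤ θ := by exact_mod_cast h7
  have t1 : (θ : ℝ) ≤ 1 := by exact_mod_cast h8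
  have h6' : κ * B0 < 1 := by linarith
  have hx0 : (κ : ℝ) * B0 < 1 := by exact_mod_cast h6'
  have hB0' : (0 : ℝ) < B0 := by exact_mod_cast h5
  have hx0pos : 0 < (κ : ℝ) * B0 := by positivity
  have hpos : 0 < (κ : ℝ) * B := by positivity
  have hlt : (κ : ℝ) * B < 1 := by
    have := mul_le_mul_of_nonneg_left hB k0.le
    linarith
  refine ⟨hpos, hlt, ?_⟩
  have hd : 0 < 1 - ((κ : ℝ) * B0) ^ 2 := by nlinarith
  have hd2 : 1 - ((κ : ℝ) * B0) * ((κ : ℝ) * B0) ≠ 0 := by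
    have : 1 - ((κ : ℝ) * B0) * ((κ : ℝ) * B0) = 1 - ((κ : ℝ) * B0) ^ 2 := by ring
    rw [this]
    exact hd.ne'
  have hρpos : 0 < ρ := by linarith
  have hρlt : ρ < 1 := by linarith
  refine small_real (G := 1 / (1 - ((κ : ℝ) * B0) * ((κ : ℝ) * B0))) (H := ((psiHi ρ1 : ℚ) : ℝ))
    (Llo := ((Llo : ℚ) : ℝ)) (Lhi := ((Lhi : ℚ) : ℝ)) r1 hρ1 hρ2 r2 t0 t1 k0 hB0 hB hx0 ?_ ?_
    (by exact_mod_cast h9) Llo_le le_Lhi ?_ ?_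
  · have : 1 - ((κ : ℝ) * B0) * ((κ : ℝ) * B0) = 1 - ((κ : ℝ) * B0) ^ 2 := by ring
    rw [← this]
    rw [div_mul_cancel₀ _ hd2]
  · exact (psi_anti r1.le hρ1 hρlt.le).trans (le_psiHi h1.le (by linarith))
  · have e : (0 : ℝ) ≤ ((Llo * κ - (Lhi + (1 / (1 - (κ * B0) * (κ * B0))) * ((κ * B0) * (κ * B0)) / 2)
          * ((1 / (1 - (κ * B0) * (κ * B0))) * (ρ2 * ρ2) * κ)
        - psiHi ρ1 * (((1 / (1 - (κ * B0) * (κ * B0))) - ρ1 * ρ1) * (κ * κ) / 2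
          + (Lhi + (1 / (1 - (κ * B0) * (κ * B0))) * ((κ * B0) * (κ * B0)) / 2)
            * (θ + (1 - θ) * (B0 * B0))) : ℚ) : ℝ) := by
      exact_mod_cast h10
    push_cast at e
    have e2 : ∀ a : ℝ, a ^ 2 = a * a := fun a => sq a
    simp only [e2]
    linarith
  · have e : ((6 * (1 - θ) * (Lhi + (1 / (1 - (κ * B0) * (κ * B0))) * (ρ2 * ρ2)
          * ((κ * B0) * (κ * B0)) / 2) : ℚ) : ℝ)
        ≤ ((θ * (κ * κ / 2) * (1 - (1 / (1 - (κ * B0) * (κ * B0))) * (ρ2 * ρ2)) : ℚ) : ℝ) := by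
      exact_mod_cast h11
    push_cast at e
    have e2 : ∀ a : ℝ, a ^ 2 = a * a := fun a => sq a
    simp only [e2]
    linarith

/-- The check of a row: cells `[bᵢ, bᵢ₊₁]`, tangent point `xᵢ`. -/
def checkRow (ρ1 ρ2 θ : ℚ) : ℚ → List (ℚ × ℚ) → Bool
  | b, [] => decide (1 / 2 ≤ b)
  | b, (x, b') :: t => checkCell ρ1 ρ2 θ x b b' && checkRow ρ1 ρ2 θ b' t

theorem checkRow_sound {ρ1 ρ2 θ : ℚ} {b : ℚ} {L : List (ℚ × ℚ)} (hc : checkRow ρ1 ρ2 θ b L = true)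
    {ρ B : ℝ} (hρ1 : (ρ1 : ℝ) ≤ ρ) (hρ2 : ρ ≤ (ρ2 : ℝ)) (hb : (b : ℝ) < B) (hB : B ≤ 1 / 2) :
    ∃ x : ℝ, 0 < x ∧ x < 1 ∧ GoodAt ρ (θ : ℝ) B x := by
  induction L generalizing b with
  | nil =>
    simp only [checkRow, decide_eq_true_eq] at hc
    have h : ((1 / 2 : ℚ) : ℝ) ≤ b := Rat.cast_le.mpr hc
    push_cast at h
    linarith only [h, hb, hB]
  | cons p t ih =>
    obtain ⟨x, b'⟩ := p
    simp only [checkRow, Bool.and_eq_true] at hc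
    rcases le_or_gt B (b' : ℝ) with h | h
    · exact ⟨x, checkCell_sound hc.1 hρ1 hρ2 hb.le h⟩
    · exact ih hc.2 h

/-- The check of a full row over `[ρ₁,ρ₂]`. -/
def checkFull (ρ1 ρ2 θ κ B0 : ℚ) (L : List (ℚ × ℚ)) : Bool :=
  checkSmall ρ1 ρ2 θ κ B0 && checkRow ρ1 ρ2 θ B0 L

theorem checkFull_sound {ρ1 ρ2 θ κ B0 : ℚ} {L : List (ℚ × ℚ)}
    (hc : checkFull ρ1 ρ2 θ κ B0 L = true)
    {ρ B : ℝ} (hρ1 : (ρ1 : ℝ) ≤ ρ) (hρ2 : ρ ≤ (ρ2 : ℝ)) (hB0 : 0 < B) (hB : B ≤ 1 / 2) :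
    ∃ x : ℝ, 0 < x ∧ x < 1 ∧ GoodAt ρ (θ : ℝ) B x := by
  simp only [checkFull, Bool.and_eq_true] at hc
  rcases le_or_gt B (B0 : ℝ) with h | h
  · exact ⟨_, checkSmall_sound hc.1 hρ1 hρ2 hB0 h⟩
  · exact checkRow_sound hc.2 hρ1 hρ2 h hB

/-- One row of the table: upper end of the `ρ`-cell, `κ`, `B₀`, the row cells. -/
structure Row where
  /-- the upper end of the `ρ`-cell -/
  r2 : ℚ
  /-- slope of the tangent point for small `B` -/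
  κ : ℚ
  /-- threshold for small `B` -/
  B0 : ℚ
  /-- the cells of the row -/
  L : List (ℚ × ℚ)

/-- The check of a table of consecutive rows from `ρ₁` up to `ρe`. -/
def checkTable (θ ρe : ℚ) : ℚ → List Row → Bool
  | ρ1, [] => decide (ρe ≤ ρ1)
  | ρ1, r :: t => checkFull ρ1 r.r2 θ r.κ r.B0 r.L && checkTable θ ρe r.r2 t

theorem checkTable_sound {θ ρe ρ1 : ℚ} {T : List Row} (hc : checkTable θ ρe ρ1 T = true)
    {ρ B : ℝ} (hρ1 : (ρ1 : ℝ) ≤ ρ) (hρ2 : ρ < (ρe : ℝ)) (hB0 : 0 < B) (hB : B ≤ 1 / 2) :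
    ∃ x : ℝ, 0 < x ∧ x < 1 ∧ GoodAt ρ (θ : ℝ) B x := by
  induction T generalizing ρ1 with
  | nil =>
    simp only [checkTable, decide_eq_true_eq] at hc
    have h : (ρe : ℝ) ≤ ρ1 := Rat.cast_le.mpr hc
    linarith only [h, hρ1, hρ2]
  | cons r t ih =>
    simp only [checkTable, Bool.and_eq_true] at hc
    rcases le_or_gt ρ (r.r2 : ℝ) with h | h
    · exact checkFull_sound hc.1 hρ1 h hB0 hB
    · exact ih hc.2 h.le

end Vale.Agent.P322T
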